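import Vale.Agent.P031.Mertens

/-!
# P031 Q2, assembly: weights of prime tuples in a coordinate box
-/

open Finset
open scoped Classical
noncomputable section

namespace Vale.Agent.P031.Assemble

/-- The coordinate of a prime (or of the placeholder `1`) at scale `L`. -/
def unitCoord (L : ℝ) (p : ℕ) : ℝ := max 0 (min 1 (lam (p : ℝ) / L))

theorem lam_two_neg : lam ((2 : ℕ) : ℝ) < 0 := by
  unfold lam
  have h1 := Real.log_two_gt_d9
  have h2 := Real.log_two_lt_d9
  push_cast
  exact Real.log_neg (by linarith) (by linarith)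

theorem lam_pos_of_three_le {p : ℕ} (hp : 3 ≤ p) : 0 < lam (p : ℝ) := by
  have h : (3 : ℝ) ≤ p := by exact_mod_cast hp
  exact Real.log_pos ((Real.lt_log_iff_exp_lt (by linarith)).2 (by linarith [Real.exp_one_lt_d9]))

/-- Weight of the primes (and the placeholder) with coordinate in `[a, c]`, from above. -/
theorem cell_le : ∃ C : ℝ, 0 ≤ C ∧ ∀ (L a c : ℝ) (S : Finset ℕ), 1 ≤ L → a ≤ c →
    (∀ p ∈ S, (p = 1 ∨ (p.Prime ∧ lam (p : ℝ) ≤ L + 1)) ∧
      a ≤ unitCoord L p ∧ unitCoord L p ≤ c) →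
    ∑ p ∈ S, (1 : ℝ) / (Nat.totient p : ℝ) ≤ L * (c - a) + C := by
  obtain ⟨C, hC0, hC⟩ := mertens_lam_pred
  refine ⟨C + 4, by linarith, fun L a c S hL hac hS => ?_⟩
  set u : ℝ := max 0 (min 1 a) with hu
  set w : ℝ := max 0 (min 1 c) with hw
  have huw : u ≤ w := max_le_max le_rfl (min_le_min le_rfl hac)
  have hwu : w - u ≤ c - a := by
    simp only [hu, hw]
    rcases le_total (min 1 a) 0 with h | h <;> rcases le_total (min 1 c) 0 with h' | h' <;>
      rcases le_total 1 a with ha | ha <;> rcases le_total 1 c with hc | hc <;>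
      simp_all [max_eq_left, max_eq_right, min_eq_left, min_eq_right] <;> linarith
  set lo : ℝ := max 0 (L * u - 1) with hlo
  have hu0 : 0 ≤ u := le_max_left _ _
  have hlo0 : 0 ≤ lo := le_max_left _ _
  have hlohi : lo ≤ L * w + 1 := by
    refine max_le (by nlinarith) ?_
    nlinarith
  have hsub : S ⊆ ({1, 2} : Finset ℕ) ∪ primesLam lo (L * w + 1) := by
    intro p hp
    obtain ⟨hp1, hpa, hpc⟩ := hS p hp
    rcases hp1 with rfl | ⟨hpp, hpl⟩
    · simp
    by_cases h3 : p ≤ 2
    · have : p = 2 := le_antisymm h3 hpp.two_le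
      simp [this]
    rw [mem_union]
    right
    have hpos := lam_pos_of_three_le (show 3 ≤ p by omega)
    have hL0 : 0 < L := by linarith
    have hu' : u ≤ unitCoord L p := by
      refine max_le (le_max_left _ _) ?_
      exact le_trans (min_le_right _ _) hpa
    have hw' : unitCoord L p ≤ w := by
      refine max_le (le_max_left _ _) ?_
      refine le_max_of_le_right (le_min (min_le_left _ _) ?_)
      exact le_trans (le_max_right _ _) hpc
    refine mem_primesLam.2 ⟨hpp, ?_, ?_⟩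
    · rw [hlo, max_lt_iff]
      refine ⟨hpos, ?_⟩
      have h : unitCoord L p ≤ lam (p : ℝ) / L :=
        max_le (div_nonneg hpos.le hL0.le) (min_le_right _ _)
      have := mul_le_mul_of_nonneg_left (hu'.trans h) hL0.le
      rw [mul_div_cancel₀ _ hL0.ne'] at this
      linarith
    · rcases le_or_gt (lam (p : ℝ)) L with h | h
      · have hh : lam (p : ℝ) / L ≤ unitCoord L p :=
          le_max_of_le_right (le_min ((div_le_one hL0).2 h) le_rfl)
        have := mul_le_mul_of_nonneg_left (hh.trans hw') hL0.le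
        rw [mul_div_cancel₀ _ hL0.ne'] at this
        linarith
      · have hh : 1 ≤ unitCoord L p :=
          le_max_of_le_right (le_min le_rfl ((one_le_div hL0).2 h.le))
        have := mul_le_mul_of_nonneg_left (hh.trans hw') hL0.le
        linarith
  have hprime : ∑ p ∈ primesLam lo (L * w + 1), (1 : ℝ) / (Nat.totient p : ℝ) ≤
      L * w + 1 - lo + C := by
    have h := (abs_le.1 (hC lo (L * w + 1) hlo0 hlohi)).2
    refine le_trans (le_of_eq (sum_congr rfl fun p hp => ?_)) (by linarith)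
    have hpp := (mem_primesLam.1 hp).1
    rw [Nat.totient_prime hpp, Nat.cast_sub hpp.one_le, Nat.cast_one]
  calc ∑ p ∈ S, (1 : ℝ) / (Nat.totient p : ℝ)
      ≤ ∑ p ∈ ({1, 2} : Finset ℕ) ∪ primesLam lo (L * w + 1), (1 : ℝ) / (Nat.totient p : ℝ) :=
        sum_le_sum_of_subset_of_nonneg hsub fun p _ _ => by positivity
    _ ≤ ∑ p ∈ ({1, 2} : Finset ℕ), (1 : ℝ) / (Nat.totient p : ℝ) +
          ∑ p ∈ primesLam lo (L * w + 1), (1 : ℝ) / (Nat.totient p : ℝ) := by
        rw [← sum_union_inter]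
        exact le_add_of_nonneg_right (sum_nonneg fun p _ => by positivity)
    _ ≤ 2 + (L * w + 1 - lo + C) := by
        refine add_le_add (le_of_eq ?_) hprime
        rw [sum_insert (by decide), sum_singleton, Nat.totient_one, Nat.totient_two]
        norm_num
    _ ≤ L * (c - a) + (C + 4) := by
        have : L * u - 1 ≤ lo := le_max_right _ _
        nlinarith

/-- Sum over a box of tuples is the product of the coordinate sums. -/
theorem sum_piFinset_inv_totient {n : ℕ} (t : Fin n → Finset ℕ) :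
    ∑ x ∈ Fintype.piFinset t, ∏ i, (1 : ℝ) / (Nat.totient (x i) : ℝ) =
      ∏ i, ∑ p ∈ t i, (1 : ℝ) / (Nat.totient p : ℝ) :=
  (prod_univ_sum t fun _ p => (1 : ℝ) / (Nat.totient p : ℝ)).symm

/-- Tuples in a coordinate box, from above. -/
theorem box_le : ∃ C : ℝ, 0 ≤ C ∧ ∀ (L w : ℝ) (n : ℕ) (a : Fin n → ℝ)
    (T : Finset (Fin n → ℕ)), 1 ≤ L → 0 ≤ w →
    (∀ x ∈ T, ∀ i, (x i = 1 ∨ ((x i).Prime ∧ lam (x i : ℝ) ≤ L + 1)) ∧
      a i ≤ unitCoord L (x i) ∧ unitCoord L (x i) ≤ a i + w) →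
    ∑ x ∈ T, ∏ i, (1 : ℝ) / (Nat.totient (x i) : ℝ) ≤ (L * w + C) ^ n := by
  obtain ⟨C, hC0, hC⟩ := cell_le
  refine ⟨C, hC0, fun L w n a T hL hw hT => ?_⟩
  have hsub : T ⊆ Fintype.piFinset fun i => T.image fun x => x i := fun x hx =>
    Fintype.mem_piFinset.2 fun i => mem_image_of_mem _ hx
  refine (sum_le_sum_of_subset_of_nonneg hsub fun x _ _ =>
    prod_nonneg fun i _ => by positivity).trans ?_
  rw [sum_piFinset_inv_totient]
  calc ∏ i, ∑ p ∈ T.image fun x => x i, (1 : ℝ) / (Nat.totient p : ℝ)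
      ≤ ∏ _i : Fin n, (L * w + C) := by
        refine prod_le_prod (fun i _ => sum_nonneg fun p _ => by positivity) fun i _ => ?_
        have h := hC L (a i) (a i + w) (T.image fun x => x i) hL (by linarith) fun p hp => by
          obtain ⟨x, hx, rfl⟩ := mem_image.1 hp
          exact hT x hx i
        simpa using h
    _ = (L * w + C) ^ n := by simp

/-- All prime tuples in a box, from below. -/
theorem box_ge : ∃ C : ℝ, 0 ≤ C ∧ ∀ (L w : ℝ) (n : ℕ) (a : Fin n → ℝ), 0 < L →
    (∀ i, 0 ≤ a i ∧ a i + w ≤ 1) → C ≤ L * w →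
    ∃ T : Finset (Fin n → ℕ),
      (∀ x ∈ T, ∀ i, (x i).Prime ∧ L * a i < lam (x i : ℝ) ∧ lam (x i : ℝ) ≤ L ∧
        a i ≤ unitCoord L (x i) ∧ unitCoord L (x i) ≤ a i + w) ∧
      (L * w - C) ^ n ≤ ∑ x ∈ T, ∏ i, (1 : ℝ) / (Nat.totient (x i) : ℝ) := by
  obtain ⟨C, hC0, hC⟩ := mertens_lam_pred
  refine ⟨C, hC0, fun L w n a hL ha hCw => ?_⟩
  refine ⟨Fintype.piFinset fun i => primesLam (L * a i) (L * (a i + w)), fun x hx i => ?_, ?_⟩
  · obtain ⟨hp, h1, h2⟩ := mem_primesLam.1 (Fintype.mem_piFinset.1 hx i)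
    obtain ⟨ha0, ha1⟩ := ha i
    have hle : lam (x i : ℝ) ≤ L := h2.trans (by nlinarith)
    have hw : 0 ≤ w := nonneg_of_mul_nonneg_right (hC0.trans hCw) hL
    refine ⟨hp, h1, hle, ?_, ?_⟩
    · refine le_max_of_le_right (le_min (by linarith) ?_)
      rw [le_div_iff₀ hL]; linarith
    · refine max_le (by linarith) (le_trans (min_le_right _ _) ?_)
      rw [div_le_iff₀ hL]; linarith
  · rw [sum_piFinset_inv_totient]
    calc (L * w - C) ^ n = ∏ _i : Fin n, (L * w - C) := by simp
      _ ≤ _ := by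
        refine prod_le_prod (fun i _ => by linarith) fun i _ => ?_
        obtain ⟨ha0, ha1⟩ := ha i
        have hw : 0 ≤ L * w := hC0.trans hCw
        have h := (abs_le.1 (hC (L * a i) (L * (a i + w)) (by positivity)
          (by rw [mul_add]; linarith))).1
        refine le_trans (b := ∑ p ∈ primesLam (L * a i) (L * (a i + w)), (1 : ℝ) / ((p : ℝ) - 1))
          (by linarith) (le_of_eq (sum_congr rfl fun p hp => ?_))
        have hpp := (mem_primesLam.1 hp).1
        rw [Nat.totient_prime hpp, Nat.cast_sub hpp.one_le, Nat.cast_one]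

end Vale.Agent.P031.Assemble
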