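import Vale.Agent.P031.Defs

/-!
# P031 Q2, assembly: the range of `y`, and the ratio limit from the scale theorem
-/

open Filter
open scoped Classical Topology
noncomputable section

namespace Vale.Agent.P031.Assemble

/-- For large `x` and `y ∈ [x, c x]` all sizes are those of `x`. -/
theorem eventually_range : ∀ c : ℝ, 1 ≤ c → ∀ L0 : ℝ, ∀ᶠ x in atTop, L0 ≤ lam x ∧
    Real.exp (Real.exp (lam x)) = x ∧ ∀ y ∈ Set.Icc x (c * x),
      lam (2 * y + 2) ≤ lam x + 1 ∧ y ≤ Real.exp (Real.exp (lam x + 1)) ∧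
        Real.log y ≤ 2 * Real.exp (lam x) := by
  intro c hc L0
  have hlam : Tendsto lam atTop atTop := Real.tendsto_log_atTop.comp Real.tendsto_log_atTop
  filter_upwards [hlam.eventually_ge_atTop L0, eventually_ge_atTop (2 : ℝ),
    Real.tendsto_log_atTop.eventually_ge_atTop (Real.log (4 * c))] with x hL hx hlog
  have hl : 0 < Real.log x := Real.log_pos (by linarith)
  have he : Real.exp (lam x) = Real.log x := Real.exp_log hl
  refine ⟨hL, by rw [he, Real.exp_log (by linarith)], fun y hy => ?_⟩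
  obtain ⟨hy1, hy2⟩ := hy
  have hcx : x ≤ c * x := le_mul_of_one_le_left (by linarith) hc
  have h2y : Real.log (2 * y + 2) ≤ 2 * Real.log x := by
    calc Real.log (2 * y + 2) ≤ Real.log (4 * c * x) := Real.log_le_log (by linarith) (by linarith)
      _ = Real.log (4 * c) + Real.log x := Real.log_mul (by positivity) (by linarith)
      _ ≤ _ := by linarith
  have hy' : Real.log y ≤ 2 * Real.log x :=
    (Real.log_le_log (by linarith) (by linarith)).trans h2y
  refine ⟨?_, ?_, by rw [he]; exact hy'⟩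
  · calc lam (2 * y + 2) ≤ Real.log (2 * Real.log x) :=
          Real.log_le_log (Real.log_pos (by linarith)) h2y
      _ = Real.log 2 + lam x := Real.log_mul two_ne_zero hl.ne'
      _ ≤ _ := by linarith [Real.log_two_lt_d9]
  · rw [← Real.log_le_iff_le_exp (by linarith), Real.exp_add, he]
    have := Real.exp_one_gt_d9
    have h3 := mul_le_mul_of_nonneg_left (show (2 : ℝ) ≤ Real.exp 1 by linarith) hl.le
    linarith

theorem tendsto_log_ratio {c : ℝ} (hc : 0 < c) :
    Tendsto (fun x : ℝ => Real.log x / Real.log (c * x)) atTop (𝓝 1) := by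
  have h1 : Tendsto (fun x : ℝ => Real.log x + Real.log c) atTop atTop :=
    tendsto_atTop_add_const_right _ _ Real.tendsto_log_atTop
  have h2 : Tendsto (fun x : ℝ => 1 - Real.log c / (Real.log x + Real.log c)) atTop (𝓝 1) := by
    simpa using tendsto_const_nhds.sub (h1.const_div_atTop (Real.log c))
  refine h2.congr' ?_
  filter_upwards [h1.eventually_gt_atTop 0, eventually_gt_atTop (0 : ℝ)] with x hx hx0
  rw [Real.log_mul hc.ne' hx0.ne', add_comm (Real.log c), eq_div_iff hx.ne', sub_mul,
    div_mul_cancel₀ _ hx.ne']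
  ring

/-- The ratio limit from the scale theorem. -/
theorem tendsto_of_scale (h : ∀ ε > 0, ∀ c : ℝ, 1 < c → ∀ᶠ x in atTop, ∃ S > 0,
      ∀ y ∈ Set.Icc x (c * x), |(totientCount y : ℝ) * Real.log y / y - S| ≤ ε * S) :
    ∀ c : ℝ, 1 < c →
      Tendsto (fun x : ℝ => (totientCount (c * x) : ℝ) / totientCount x) atTop (𝓝 c) := by
  intro c hc
  set r : ℝ → ℝ := fun y => (totientCount y : ℝ) * Real.log y / y with hr
  have hratio : Tendsto (fun x => r (c * x) / r x) atTop (𝓝 1) := by
    rw [Metric.tendsto_nhds]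
    intro e he
    set δ : ℝ := min (e / 8) (1 / 2) with hδ
    have hδ0 : 0 < δ := lt_min (by linarith) (by norm_num)
    have hδ2 : δ ≤ 1 / 2 := min_le_right _ _
    have hδe : δ ≤ e / 8 := min_le_left _ _
    filter_upwards [h δ hδ0 c hc, eventually_gt_atTop (0 : ℝ)] with x ⟨S, hS, hxy⟩ hx
    have hcx : x ≤ c * x := le_mul_of_one_le_left hx.le hc.le
    have e1 := abs_le.1 (hxy x ⟨le_rfl, hcx⟩)
    have e2 := abs_le.1 (hxy (c * x) ⟨hcx, le_rfl⟩)
    simp only [hr, Real.dist_eq]
    set u := (totientCount x : ℝ) * Real.log x / x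
    set w := (totientCount (c * x) : ℝ) * Real.log (c * x) / (c * x)
    have hSu : S / 2 ≤ u := by linarith [mul_le_mul_of_nonneg_right hδ2 hS.le]
    have hu : 0 < u := by linarith
    rw [abs_lt]
    have hδS : 2 * δ * S < e * u := by
      calc 2 * δ * S ≤ 2 * (e / 8) * S := by gcongr
        _ = e * (S / 4) := by ring
        _ < e * u := mul_lt_mul_of_pos_left (by linarith) he
    constructor
    · rw [lt_sub_iff_add_lt, lt_div_iff₀ hu]; linarith
    · rw [sub_lt_iff_lt_add, div_lt_iff₀ hu]; linarith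
  have hlim := (hratio.const_mul c).mul (tendsto_log_ratio (show (0 : ℝ) < c by linarith))
  rw [mul_one, mul_one] at hlim
  refine hlim.congr' ?_
  filter_upwards [eventually_gt_atTop (1 : ℝ)] with x hx
  have h1 : 0 < Real.log x := Real.log_pos hx
  have h2 : 0 < Real.log (c * x) := Real.log_pos (one_lt_mul_of_lt_of_le hc hx.le)
  simp only [hr]
  field_simp

theorem totientCount_eq_card (y : ℝ) : totientCount y
    = ((Finset.Icc 1 ⌊y⌋₊).filter fun v => ∃ n, Nat.totient n = v).card := by
  unfold totientCount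
  rw [← Nat.card_eq_finsetCard]
  refine Nat.card_congr (Equiv.subtypeEquivRight fun v => ?_)
  simp only [Finset.mem_filter, Finset.mem_Icc]
  constructor
  · rintro ⟨h1, h2, h3⟩; exact ⟨⟨h1, Nat.le_floor h2⟩, h3⟩
  · rintro ⟨⟨h1, h2⟩, h3⟩
    exact ⟨h1, (Nat.le_floor_iff' (by omega)).1 h2, h3⟩

end Vale.Agent.P031.Assemble
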