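import Vale.Agent.P031.Defs

/-!
# P031 Q2, assembly: sizes of the parameters
-/

open Filter
open scoped Classical Topology
noncomputable section

namespace Vale.Agent.P031.Assemble

variable {P : Params}

theorem two_pow_mul_le (h : P.Admissible) (hL : 1 < P.L) (m : ℕ) :
    (2 : ℝ) ^ (m * P.K) ≤ P.L ^ ((m : ℝ) / 250) := by
  rw [← Real.rpow_natCast, Real.rpow_def_of_pos two_pos, Real.rpow_def_of_pos (by linarith)]
  refine Real.exp_le_exp.2 ?_
  push_cast
  have h1 : Real.log 2 ≤ 1 := by linarith [Real.log_two_lt_d9]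
  have h2 : 0 ≤ (m : ℝ) * P.K := by positivity
  calc Real.log 2 * ((m : ℝ) * P.K) ≤ 1 * ((m : ℝ) * P.K) :=
        mul_le_mul_of_nonneg_right h1 h2
    _ ≤ (m : ℝ) * (Real.log P.L / 250) := by
        rw [one_mul]; exact mul_le_mul_of_nonneg_left h.2.1 (Nat.cast_nonneg m)
    _ = Real.log P.L * ((m : ℝ) / 250) := by ring

/-- A fixed negative power of `2 ^ K` times `L` is still a large power of `L`. -/
theorem rpow_le_div_two_pow (h : P.Admissible) (hL : 1 < P.L) (m : ℕ) :
    P.L ^ (1 - (m : ℝ) / 250) ≤ P.L / 2 ^ (m * P.K) := by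
  rw [Real.rpow_sub (by linarith), Real.rpow_one]
  exact div_le_div_of_nonneg_left (by linarith) (by positivity) (two_pow_mul_le h hL m)

theorem eventually_K_ge (k : ℕ) :
    ∃ L0 : ℝ, ∀ P : Params, L0 ≤ P.L → P.Admissible → k ≤ P.K := by
  refine ⟨Real.exp (1000 * k), fun P hL hP => ?_⟩
  have h1 := Real.log_le_log (Real.exp_pos _) hL
  rw [Real.log_exp] at h1
  have : (k : ℝ) ≤ P.K := by linarith [hP.2.2]
  exact_mod_cast this

theorem eventually_log_le (C : ℝ) {a : ℝ} (ha : 0 < a) :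
    ∀ᶠ L : ℝ in atTop, C * Real.log L ≤ L ^ a := by
  have h := (isLittleO_log_rpow_atTop ha).def (show 0 < 1 / (|C| + 1) by positivity)
  filter_upwards [h, eventually_ge_atTop (1 : ℝ)] with L hL h1
  rw [Real.norm_eq_abs, Real.norm_eq_abs, abs_of_nonneg (Real.log_nonneg h1),
    abs_of_nonneg (Real.rpow_nonneg (by linarith) a), one_div, ← div_eq_inv_mul,
    le_div_iff₀ (by positivity)] at hL
  have : C * Real.log L ≤ (|C| + 1) * Real.log L :=
    mul_le_mul_of_nonneg_right (by linarith [le_abs_self C]) (Real.log_nonneg h1)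
  linarith

theorem eventually_log_sq_le (C : ℝ) {a : ℝ} (ha : 0 < a) :
    ∀ᶠ L : ℝ in atTop, C * Real.log L ^ 2 ≤ L ^ a := by
  have h2 := eventually_log_le (|C| + 1) (show 0 < a / 2 by positivity)
  filter_upwards [h2, eventually_ge_atTop (1 : ℝ)] with L hL h1
  have h0 : 0 ≤ Real.log L := Real.log_nonneg h1
  have hsq := mul_self_le_mul_self (by positivity) hL
  rw [← Real.rpow_add (by linarith), add_halves] at hsq
  have hC : C ≤ (|C| + 1) * (|C| + 1) := by
    nlinarith [le_abs_self C, abs_nonneg C]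
  nlinarith [mul_le_mul_of_nonneg_right hC (sq_nonneg (Real.log L))]

/-- Polylogarithmic losses `exp (C (log L) ^ 2)` are absorbed by `exp (- L ^ a)`. -/
theorem eventually_absorb (C D : ℝ) {a b : ℝ} (hab : b < a) (hb : 0 < b) :
    ∀ᶠ L : ℝ in atTop,
      D * Real.exp (C * Real.log L ^ 2 - L ^ a) ≤ Real.exp (-(L ^ b)) := by
  have hgap : ∀ᶠ L : ℝ in atTop, 3 ≤ L ^ (a - b) :=
    (tendsto_rpow_atTop (by linarith)).eventually_ge_atTop 3
  have hD : ∀ᶠ L : ℝ in atTop, Real.log (max D 1) ≤ L ^ b :=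
    (tendsto_rpow_atTop hb).eventually_ge_atTop _
  filter_upwards [hgap, hD, eventually_log_sq_le C hb, eventually_ge_atTop (1 : ℝ)]
    with L h3 hD' hC h1
  have hpb : 0 ≤ L ^ b := Real.rpow_nonneg (by linarith) b
  have ha' : 3 * L ^ b ≤ L ^ a := by
    calc 3 * L ^ b ≤ L ^ (a - b) * L ^ b := mul_le_mul_of_nonneg_right h3 hpb
      _ = L ^ a := by rw [← Real.rpow_add (by linarith)]; ring_nf
  calc D * Real.exp (C * Real.log L ^ 2 - L ^ a)
      ≤ Real.exp (Real.log (max D 1)) * Real.exp (C * Real.log L ^ 2 - L ^ a) := by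
        rw [Real.exp_log (by positivity)]
        exact mul_le_mul_of_nonneg_right (le_max_left _ _) (Real.exp_pos _).le
    _ ≤ Real.exp (-(L ^ b)) := by
        rw [← Real.exp_add]; exact Real.exp_le_exp.2 (by linarith)

end Vale.Agent.P031.Assemble
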