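import Vale.Agent.P031.Assemble.Pairs
import Vale.Agent.P031.RepBasics

/-!
# P031 Q2, assembly: the prime list of a good pair

A good pair with a top prime gives a decreasing list of primes of scale above `Tb`, with margins
in every slack, and a cofactor whose primes have scale at most `Tb`.
-/

open scoped Classical
open Finset
noncomputable section

namespace Vale.Agent.P031

namespace Params

variable (P : Params)

/-- A top prime over a good pair, with value at most `y`. -/
def GoodTop (y : ℝ) (e : ℕ × P.Pair) : Prop :=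
  P.GoodPair e.2 ∧ e.1.Prime ∧ P.Normal e.1 ∧ P.L - 3 * Real.log P.L ≤ lam (e.1 : ℝ) ∧
    lam (e.1 : ℝ) ≤ P.L + 1 ∧ (((e.1 - 1) * P.pairW e.2 : ℕ) : ℝ) ≤ y

/-- The value of a top prime over a pair. -/
def pairVal (e : ℕ × P.Pair) : ℕ := (e.1 - 1) * P.pairW e.2

/-- The first `K` levels. -/
def headList (e : ℕ × P.Pair) : List ℕ := e.1 :: List.ofFn e.2.1

theorem headList_length (hK : 1 ≤ P.K) (e : ℕ × P.Pair) : (P.headList e).length = P.K := by
  simp [headList]; omega

/-- The tail index from which the scales are at most `Tb`. -/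
def tailLen (m : ℕ) : ℕ :=
  if h : ∃ j, lam (((P.bigPrimes (canon m)).getD j 1 : ℕ) : ℝ) ≤ P.Tb then Nat.find h else 0

/-- The tail primes above `Tb`. -/
def tailList (m : ℕ) : List ℕ := (P.bigPrimes (canon m)).take (P.tailLen m)

/-- All listed levels of a top prime over a pair. -/
def fullList (e : ℕ × P.Pair) : List ℕ := P.headList e ++ P.tailList e.2.2

theorem fullList_take (hK : 1 ≤ P.K) (e : ℕ × P.Pair) :
    (P.fullList e).take P.K = P.headList e := by
  unfold fullList
  rw [List.take_append_of_le_length (le_of_eq (P.headList_length hK e).symm)]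
  exact List.take_of_length_le (le_of_eq (P.headList_length hK e))

/-- The numerical facts used by the conversion. -/
structure ProfBig : Prop where
  K16 : 16 ≤ P.K
  L1 : 1 ≤ P.L
  logL : 3 * Real.log P.L ≤ 2 * P.eta * P.L

variable {P}

theorem tail_spec (hb : P.ProfBig) {m : ℕ} (hm : P.TailGood m) (hK1 : P.tailB m P.K < 1) :
    (∀ j < P.tailLen m, P.Tb < lam (((P.bigPrimes (canon m)).getD j 1 : ℕ) : ℝ) ∧
      j < (P.bigPrimes (canon m)).length ∧
      lam (((P.bigPrimes (canon m)).getD j 1 : ℕ) : ℝ) = P.L * P.tailB m (P.K + j)) ∧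
    P.tailLen m + P.K < P.K' ∧
    (∀ r ∈ P.bigPrimes (canon m), P.Tb < lam (r : ℝ) → r ∈ P.tailList m) := by
  set l := P.bigPrimes (canon m) with hl
  have hL : 0 < P.L := by linarith [hb.L1]
  have hTb : 0 < P.Tb := by unfold Params.Tb; positivity
  have hK' : P.K' = 20 * P.K := rfl
  have hKge := hb.K16
  have hlast := tail_last hb.K16 hm.ok (by linarith)
  have hanti : ∀ u, P.K ≤ u → u < P.K' → P.tailB m u ≤ P.tailB m P.K := by
    intro u hu
    induction u, hu using Nat.le_induction with
    | base => intro _; exact le_rfl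
    | succ u hu ih => intro h; exact (hm.ok.anti u hu h).trans (ih (by omega))
  have hexact : ∀ j, P.K + j < P.K' → 0 < lam ((l.getD j 1 : ℕ) : ℝ) →
      lam ((l.getD j 1 : ℕ) : ℝ) = P.L * P.tailB m (P.K + j) := by
    intro j hj hpos
    have h := (hanti (P.K + j) (by omega) hj).trans_lt hK1
    simp only [tailB, clipX, if_pos (Nat.le_add_right P.K j), Nat.add_sub_cancel_left, ← hl] at h ⊢
    rw [max_lt_iff, min_lt_iff] at h
    have h1 : lam ((l.getD j 1 : ℕ) : ℝ) / P.L < 1 := by
      rcases h.2 with h' | h'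
      · exact absurd h' (lt_irrefl _)
      · exact h'
    rw [min_eq_right h1.le, max_eq_right (div_nonneg hpos.le hL.le)]
    field_simp
  have hcut : lam ((l.getD (P.K' - 1 - P.K) 1 : ℕ) : ℝ) ≤ P.Tb := by
    by_contra hne
    rw [not_le] at hne
    have e := hexact (P.K' - 1 - P.K) (by omega) (hTb.trans hne)
    rw [show P.K + (P.K' - 1 - P.K) = P.K' - 1 by omega] at e
    rw [e] at hne
    have : P.L * P.tailB m (P.K' - 1) ≤ P.Tb := by
      calc P.L * P.tailB m (P.K' - 1) ≤ P.L * (1 / 2 ^ (12 * P.K)) :=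
            mul_le_mul_of_nonneg_left hlast hL.le
        _ = P.Tb := by unfold Params.Tb; ring
    linarith
  have hex : ∃ j, lam ((l.getD j 1 : ℕ) : ℝ) ≤ P.Tb := ⟨_, hcut⟩
  have hN : P.tailLen m = Nat.find hex := by unfold tailLen; rw [dif_pos hex]
  have hNle : Nat.find hex ≤ P.K' - 1 - P.K := Nat.find_min' hex hcut
  have hlo : ∀ j < Nat.find hex, P.Tb < lam ((l.getD j 1 : ℕ) : ℝ) := fun j hj =>
    not_le.mp (Nat.find_min hex hj)
  have hlen : ∀ j < Nat.find hex, j < l.length := by
    intro j hj
    by_contra hne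
    have := hlo j hj
    rw [List.getD_eq_default _ _ (by omega)] at this
    simp [lam] at this
    linarith
  refine ⟨fun j hj => ?_, ?_, ?_⟩
  · rw [hN] at hj
    exact ⟨hlo j hj, hlen j hj, hexact j (by omega) (hTb.trans (hlo j hj))⟩
  · rw [hN]; omega
  · intro r hr hrT
    obtain ⟨j, hj, rfl⟩ := List.getElem_of_mem hr
    rw [tailList, ← hl, hN]
    refine List.mem_take_iff_getElem.mpr ⟨j, ?_, rfl⟩
    by_contra hne
    have hspec := Nat.find_spec hex
    have hjN : Nat.find hex ≤ j := by omega
    have hNl : Nat.find hex < l.length := by omega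
    rw [List.getD_eq_getElem _ _ hNl] at hspec
    have hge : l[j] ≤ l[Nat.find hex] := by
      rcases hjN.eq_or_lt with h | h
      · exact le_of_eq (by congr 1; omega)
      · exact le_of_lt (List.pairwise_iff_getElem.mp (P.bigPrimes_sorted _) _ _ hNl hj h)
    have h2 : 2 ≤ l[j] :=
      (Nat.prime_of_mem_primeFactors (P.mem_bigPrimes.mp (List.getElem_mem hj)).1).two_le
    have := lam_mono h2 hge
    linarith

theorem tailList_length (hb : P.ProfBig) {m : ℕ} (hm : P.TailGood m) (hK1 : P.tailB m P.K < 1) :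
    (P.tailList m).length = P.tailLen m := by
  obtain ⟨h1, -, -⟩ := tail_spec hb hm hK1
  rw [tailList, List.length_take]
  rcases Nat.eq_zero_or_pos (P.tailLen m) with h | h
  · omega
  · have := (h1 (P.tailLen m - 1) (by omega)).2.1
    omega

/-- The cofactor of a tail. -/
theorem tail_cofactor (hb : P.ProfBig) {m : ℕ} (hm : P.TailGood m) (hK1 : P.tailB m P.K < 1) :
    ∃ u : ℕ, u ≠ 0 ∧ (∀ r ∈ u.primeFactors, lam (r : ℝ) ≤ P.Tb) ∧
      m = ((P.tailList m).map (fun q => q - 1)).prod * u := by
  obtain ⟨-, -, h3⟩ := tail_spec hb hm hK1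
  set n := canon m
  set T := (P.tailList m).toFinset with hT
  have hnd : (P.tailList m).Nodup :=
    (((P.bigPrimes_sorted n).imp fun h => ne_of_gt h).sublist (List.take_sublist _ _))
  have hsub : ∀ r ∈ T, r ∈ n.primeFactors ∧ P.Te < lam (r : ℝ) := fun r hr =>
    P.mem_bigPrimes.mp (List.mem_of_mem_take (List.mem_toFinset.mp hr))
  have hpart : part n (fun r => r ∈ T) = ∏ r ∈ T, r := by
    have hf : n.primeFactors.filter (fun r => r ∈ T) = T := by
      ext r
      simp only [Finset.mem_filter]
      exact ⟨fun h => h.2, fun h => ⟨(hsub r h).1, h⟩⟩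
    unfold part
    refine Finset.prod_congr (by convert hf using 2) fun r hr => ?_
    obtain ⟨hr1, hr2⟩ := hsub r hr
    have hp := Nat.prime_of_mem_primeFactors hr1
    have h2 := (hm.big r hr1 hr2).1
    have hpre : n ≠ 0 := hm.pre_ne
    have hpos := hp.factorization_pos_of_dvd hpre (Nat.dvd_of_mem_primeFactors hr1)
    have h1 : n.factorization r = 1 := by
      by_contra hne
      exact h2 ((hp.pow_dvd_iff_le_factorization hpre).2 (show 2 ≤ n.factorization r by omega))
    rw [h1, pow_one]
  refine ⟨Nat.totient (part n fun r => ¬ r ∈ T), ?_, ?_, ?_⟩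
  · exact fun h => part_ne_zero _ _ (Nat.totient_eq_zero.1 h)
  · intro r hr
    obtain ⟨q, hq, hrq⟩ := le_primeFactor_of_mem_totient hr
    obtain ⟨hq1, hq2⟩ := mem_primeFactors_part.1 hq
    refine (lam_mono (Nat.prime_of_mem_primeFactors hr).two_le hrq).trans ?_
    by_contra hne
    rw [not_le] at hne
    have hTe : P.Te < lam (q : ℝ) := by
      refine lt_of_le_of_lt ?_ hne
      unfold Params.Te Params.Tb
      refine div_le_div_of_nonneg_left (by linarith [hb.L1]) (by positivity)
        (pow_le_pow_right₀ (by norm_num) (by omega))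
    exact hq2 (List.mem_toFinset.mpr (h3 q (P.mem_bigPrimes.mpr ⟨hq1, hTe⟩) hne))
  · conv_lhs => rw [← hm.pre, totient_split hm.pre_ne (fun r => r ∈ T), hpart,
      totient_prod_primes T fun r hr => Nat.prime_of_mem_primeFactors (hsub r hr).1]
    rw [hT, List.prod_toFinset _ hnd]

/-- Facts on the free levels of a good pair. -/
theorem good_levels (hb : P.ProfBig) {z : P.Pair} (hz : P.GoodPair z) :
    (∀ i, lam (z.1 i : ℝ) = P.L * P.coord z.1 i ∧ P.coord z.1 i ≤ 1 - 3 * P.eta ∧
      P.tailB z.2 P.K + 3 * P.eta ≤ P.coord z.1 i) ∧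
    (∀ i j, i < j → P.coord z.1 j + 3 * P.eta ≤ P.coord z.1 i) ∧ P.tailB z.2 P.K < 1 := by
  obtain ⟨-, hm, hx⟩ := hz
  set b := P.tailB z.2 with hbdef
  set c := P.coord z.1 with hc
  have hK := hb.K16
  have he : 0 < P.eta := Params.eta_pos
  have hstep : ∀ u v, u < v → v ≤ P.K → P.profile b c v + 3 * P.eta ≤ P.profile b c u := by
    intro u v huv
    induction v, huv using Nat.le_induction with
    | base => intro h; have := (hx u (by omega)).2; linarith
    | succ v hv ih => intro h; have := (hx v (by omega)).2; have := ih (by omega); linarith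
  have hmid : ∀ i : Fin (P.K - 1), P.profile b c (i.val + 1) = c i := fun i => by
    rw [profile_mid P (by omega) (by omega)]
    rfl
  have htop : P.profile b c P.K = b P.K := profile_of_ge P (by omega) le_rfl
  have h1 : ∀ i, c i ≤ 1 - 3 * P.eta := fun i => by
    have := hstep 0 (i.val + 1) (by omega) (by omega)
    rw [profile_zero, hmid] at this
    linarith
  have h2 : ∀ i, b P.K + 3 * P.eta ≤ c i := fun i => by
    have := hstep (i.val + 1) P.K (by omega) le_rfl
    rwa [hmid, htop] at this
  have hb0 := hm.ok.nonneg P.K le_rfl (by simp [Params.K']; omega)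
  refine ⟨fun i => ⟨?_, h1 i, h2 i⟩, fun i j hij => ?_, ?_⟩
  · have hlo : 0 < c i := by linarith [h2 i]
    have hhi : c i < 1 := by linarith [h1 i]
    have hLp : 0 < P.L := by linarith [hb.L1]
    simp only [hc, coord, clipX] at hlo hhi ⊢
    rcases le_or_gt (lam (z.1 i : ℝ) / P.L) 0 with h | h
    · rw [max_eq_left ((min_le_right _ _).trans h)] at hlo
      exact absurd hlo (lt_irrefl _)
    · rcases le_or_gt 1 (lam (z.1 i : ℝ) / P.L) with h' | h'
      · rw [min_eq_left h', max_eq_right zero_le_one] at hhi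
        exact absurd hhi (lt_irrefl _)
      · rw [min_eq_right h'.le, max_eq_right h.le]
        field_simp
  · have := hstep (i.val + 1) (j.val + 1) (by exact Nat.succ_lt_succ hij) (by omega)
    rwa [hmid, hmid] at this
  · have := h2 ⟨0, by omega⟩
    have := h1 ⟨0, by omega⟩
    linarith

/-- The properties of the full list of a good top prime. -/
theorem fullList_spec (hb : P.ProfBig) {y : ℝ} {e : ℕ × P.Pair} (h : P.GoodTop y e) :
    List.Pairwise (· > ·) (P.fullList e) ∧ (P.fullList e).length ≤ P.K' ∧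
    (∀ q ∈ P.fullList e, q.Prime ∧ P.Tb < lam (q : ℝ) ∧ lam (q : ℝ) ≤ P.L + 1 ∧ P.Normal q) ∧
    (∃ u : ℕ, u ≠ 0 ∧ (u : ℝ) ≤ y ∧ (∀ r ∈ u.primeFactors, lam (r : ℝ) ≤ P.Tb) ∧
      P.pairVal e = ((P.fullList e).map (fun q => q - 1)).prod * u) ∧
    ∀ i < P.K, i < (P.fullList e).length →
      ∑ k ∈ Finset.Ioo i (P.fullList e).length,
          fordA (k - i) * lam (((P.fullList e).getD k 1 : ℕ) : ℝ)
        ≤ lam (((P.fullList e).getD i 1 : ℕ) : ℝ) - P.eta * P.L := by
  obtain ⟨hz, hp, hn, hlo, hhi, hy⟩ := h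
  obtain ⟨p0, z⟩ := e
  simp only at hz hp hn hlo hhi hy
  obtain ⟨hlev, hmono, hK1⟩ := good_levels hb hz
  obtain ⟨hxs, hm, hx⟩ := hz
  obtain ⟨ht1, ht2, ht3⟩ := tail_spec hb hm hK1
  have htl := tailList_length hb hm hK1
  have hK := hb.K16
  have hK' : P.K' = 20 * P.K := rfl
  have he : 0 < P.eta := Params.eta_pos
  have hL : 0 < P.L := by linarith [hb.L1]
  have hb0 : 0 ≤ P.tailB z.2 P.K := hm.ok.nonneg _ le_rfl (by omega)
  have hTb : P.Tb < 3 * P.eta * P.L := by
    unfold Params.Tb Params.eta
    have h12 : (2 : ℝ) ^ (6 * P.K) < 2 ^ (12 * P.K) :=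
      pow_lt_pow_right₀ (by norm_num) (by omega)
    calc P.L / 2 ^ (12 * P.K) < P.L / 2 ^ (6 * P.K) :=
          div_lt_div_of_pos_left hL (by positivity) h12
      _ ≤ 3 * (P.L / 2 ^ (6 * P.K)) := by
          have : 0 ≤ P.L / 2 ^ (6 * P.K) := by positivity
          linarith
      _ = _ := by ring
  have hTeTb : P.Te < P.Tb := by
    unfold Params.Te Params.Tb
    exact div_lt_div_of_pos_left hL (by positivity) (pow_lt_pow_right₀ (by norm_num) (by omega))
  -- the tail entries
  have htmem : ∀ q ∈ P.tailList z.2, q.Prime ∧ P.Tb < lam (q : ℝ) ∧ P.Normal q ∧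
      lam (q : ℝ) ≤ P.L * P.tailB z.2 P.K := by
    intro q hq
    obtain ⟨j, hj, rfl⟩ := List.getElem_of_mem hq
    rw [htl] at hj
    obtain ⟨a1, a2, a3⟩ := ht1 j hj
    have e1 : (P.tailList z.2)[j] = (P.bigPrimes (canon z.2)).getD j 1 := by
      simp only [tailList, List.getElem_take]
      rw [List.getD_eq_getElem _ _ a2]
    rw [e1]
    have hmemb : (P.bigPrimes (canon z.2)).getD j 1 ∈ P.bigPrimes (canon z.2) := by
      rw [List.getD_eq_getElem _ _ a2]; exact List.getElem_mem a2
    obtain ⟨b1, b2⟩ := P.mem_bigPrimes.mp hmemb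
    refine ⟨Nat.prime_of_mem_primeFactors b1, a1, (hm.big _ b1 b2).2, ?_⟩
    rw [a3]
    refine mul_le_mul_of_nonneg_left ?_ hL.le
    have hanti : ∀ u, P.K ≤ u → u < P.K' → P.tailB z.2 u ≤ P.tailB z.2 P.K := by
      intro u hu
      induction u, hu using Nat.le_induction with
      | base => intro _; exact le_rfl
      | succ u hu ih => intro h; exact (hm.ok.anti u hu h).trans (ih (by omega))
    exact hanti _ (Nat.le_add_right _ _) (by omega)
  have hxmem : ∀ q ∈ List.ofFn z.1, ∃ i, q = z.1 i := fun q hq => by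
    obtain ⟨i, rfl⟩ := List.mem_ofFn.mp hq; exact ⟨i, rfl⟩
  have hgt : ∀ {a c : ℕ}, 2 ≤ a → lam (a : ℝ) > lam (c : ℝ) → a > c := by
    intro a c ha hac
    by_contra hne
    exact absurd (lam_mono ha (not_lt.mp hne)) (not_le.mpr hac)
  have hp0gt : ∀ i, lam (z.1 i : ℝ) < lam (p0 : ℝ) := fun i => by
    have h1 := (hlev i).1
    have h2 := mul_le_mul_of_nonneg_left (hlev i).2.1 hL.le
    have h3 := hb.logL
    nlinarith
  have hxgt : ∀ i, ∀ q ∈ P.tailList z.2, lam (q : ℝ) < lam (z.1 i : ℝ) := fun i q hq => by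
    have h1 := (hlev i).1
    have h2 := mul_le_mul_of_nonneg_left (hlev i).2.2 hL.le
    have h3 := (htmem q hq).2.2.2
    nlinarith
  have hlen : (P.fullList (p0, z)).length = P.K + P.tailLen z.2 := by
    simp only [fullList, List.length_append, htl]
    rw [P.headList_length (by omega)]
  refine ⟨?_, by rw [hlen]; omega, ?_, ?_, ?_⟩
  · simp only [fullList, headList, List.cons_append, List.pairwise_cons, List.mem_append,
      List.pairwise_append]
    refine ⟨?_, List.pairwise_ofFn.mpr fun i j hij => ?_,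
      (P.bigPrimes_sorted _).sublist (List.take_sublist _ _), ?_⟩
    · rintro q (hq | hq)
      · obtain ⟨i, rfl⟩ := hxmem q hq
        exact hgt hp.two_le (hp0gt i)
      · exact hgt hp.two_le ((hxgt ⟨0, by omega⟩ q hq).trans (hp0gt _))
    · refine hgt (hxs i).1.two_le ?_
      rw [(hlev i).1, (hlev j).1]
      have := hmono i j hij
      exact mul_lt_mul_of_pos_left (by linarith) hL
    · intro a ha c hc
      obtain ⟨i, rfl⟩ := hxmem a ha
      exact hgt (hxs i).1.two_le (hxgt i c hc)
  · intro q hq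
    simp only [fullList, headList, List.cons_append, List.mem_cons, List.mem_append] at hq
    rcases hq with rfl | hq | hq
    · refine ⟨hp, ?_, hhi, hn⟩
      have h3 := hb.logL
      have : 6 * P.eta ≤ 1 := by
        have := (hlev ⟨0, by omega⟩).2.1
        linarith [(hlev ⟨0, by omega⟩).2.2]
      nlinarith
    · obtain ⟨i, rfl⟩ := hxmem q hq
      refine ⟨(hxs i).1, ?_, (hxs i).2.2.1, (hxs i).2.2.2⟩
      rw [(hlev i).1]
      have := (hlev i).2.2
      nlinarith
    · obtain ⟨a1, a2, a3, a4⟩ := htmem q hq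
      exact ⟨a1, a2, by nlinarith, a3⟩
  · obtain ⟨u, hu0, hu, hmu⟩ := tail_cofactor hb hm hK1
    have hval : P.pairVal (p0, z)
        = ((P.fullList (p0, z)).map (fun q => q - 1)).prod * u := by
      simp only [pairVal, pairW, prefW, fullList, headList, List.cons_append, List.map_cons,
        List.map_append, List.prod_cons, List.prod_append, List.map_ofFn, List.prod_ofFn]
      rw [Finset.prod_congr rfl fun i _ => Nat.totient_prime (hxs i).1]
      conv_lhs => rw [hmu]
      simp only [Function.comp_apply]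
      ring
    refine ⟨u, hu0, le_trans ?_ hy, hu, hval⟩
    have hne : P.pairVal (p0, z) ≠ 0 := by
      refine Nat.mul_ne_zero (by have := hp.two_le; omega) (Nat.mul_ne_zero ?_ hm.ne_zero)
      exact Finset.prod_ne_zero_iff.mpr fun i _ h0 =>
        (hxs i).1.ne_zero (Nat.totient_eq_zero.1 h0)
    have : u ≤ P.pairVal (p0, z) :=
      Nat.le_of_dvd (Nat.pos_of_ne_zero hne) (by rw [hval]; exact dvd_mul_left _ _)
    exact_mod_cast this
  · intro i hi hil
    set b := P.tailB z.2
    set c := P.coord z.1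
    have hval : ∀ k, 1 ≤ k → k < P.K + P.tailLen z.2 →
        lam (((P.fullList (p0, z)).getD k 1 : ℕ) : ℝ) = P.L * P.profile b c k := by
      intro k hk hk2
      rcases lt_or_ge k P.K with hlt | hge
      · rw [profile_mid P hk hlt]
        unfold fullList
        rw [List.getD_append _ _ _ _ (by rw [P.headList_length (by omega)]; omega)]
        obtain ⟨k', rfl⟩ : ∃ k', k = k' + 1 := ⟨k - 1, by omega⟩
        simp only [headList, List.getD_cons_succ, Nat.add_sub_cancel]
        rw [List.getD_eq_getElem _ _ (by simp; omega), List.getElem_ofFn]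
        exact (hlev _).1
      · rw [profile_of_ge P (by omega) hge]
        unfold fullList
        rw [List.getD_append_right _ _ _ _ (by rw [P.headList_length (by omega)]; omega),
          P.headList_length (by omega)]
        obtain ⟨a1, a2, a3⟩ := ht1 (k - P.K) (by omega)
        rw [show P.K + (k - P.K) = k by omega] at a3
        rw [← a3, tailList, List.getD_eq_getElem _ _ (by dsimp only; rw [List.length_take]; omega),
          List.getElem_take, List.getD_eq_getElem _ _ a2]
    have hnn : ∀ k, 1 ≤ k → k < P.K' → 0 ≤ P.profile b c k := by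
      intro k hk hk'
      rcases lt_or_ge k P.K with hlt | hge
      · rw [profile_mid P hk hlt]; exact le_max_left _ _
      · rw [profile_of_ge P (by omega) hge]; exact hm.ok.nonneg k hge hk'
    have hS := (hx i hi).1
    unfold Params.slack at hS
    have hlhs : ∑ k ∈ Finset.Ioo i (P.fullList (p0, z)).length,
          fordA (k - i) * lam (((P.fullList (p0, z)).getD k 1 : ℕ) : ℝ)
        = P.L * ∑ j ∈ Finset.Ioo 0 (P.K + P.tailLen z.2 - i),
            fordA j * P.profile b c (i + j) := by
      rw [hlen, Finset.mul_sum]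
      refine Finset.sum_bij' (fun k _ => k - i) (fun j _ => i + j) ?_ ?_ ?_ ?_ ?_
      · intro k hk; simp at hk ⊢; omega
      · intro j hj; simp at hj ⊢; omega
      · intro k hk; simp at hk; omega
      · intro j hj; omega
      · intro k hk
        simp at hk
        rw [hval k (by omega) (by omega), show i + (k - i) = k by omega]
        ring
    have hsub : ∑ j ∈ Finset.Ioo 0 (P.K + P.tailLen z.2 - i), fordA j * P.profile b c (i + j)
        ≤ ∑ j ∈ Finset.Ioo 0 (P.K' - i), fordA j * P.profile b c (i + j) := by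
      refine Finset.sum_le_sum_of_subset_of_nonneg ?_ fun j hj _ => ?_
      · intro j hj; simp at hj ⊢; omega
      · simp at hj
        exact mul_nonneg (fordA_nonneg (by omega)) (hnn _ (by omega) (by omega))
    have hmul := mul_le_mul_of_nonneg_left hsub hL.le
    have hmul2 := mul_le_mul_of_nonneg_left hS hL.le
    rw [hlhs]
    rcases Nat.eq_zero_or_pos i with rfl | hi1
    · have e0 : (P.fullList (p0, z)).getD 0 1 = p0 := by simp [fullList, headList]
      rw [e0]
      rw [profile_zero] at hmul2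
      have := hb.logL
      nlinarith
    · rw [hval i hi1 (by omega)]
      nlinarith

theorem eq_of_head (hb : P.ProfBig) {y : ℝ} {e f : ℕ × P.Pair} (he : P.GoodTop y e)
    (_hf : P.GoodTop y f) (hv : P.pairVal e = P.pairVal f)
    (hh : P.headList e = P.headList f) : e = f := by
  have := hb.K16
  obtain ⟨p0, x, m⟩ := e
  obtain ⟨q0, x', m'⟩ := f
  simp only [headList, List.cons.injEq, List.ofFn_inj] at hh
  obtain ⟨rfl, rfl⟩ := hh
  simp only [pairVal, pairW] at hv
  have h1 : p0 - 1 ≠ 0 := by have := he.2.1.two_le; omega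
  have h2 : prefW x ≠ 0 := Finset.prod_ne_zero_iff.mpr fun i _ h0 =>
    (he.1.1 i).1.ne_zero (Nat.totient_eq_zero.1 h0)
  rw [mul_left_cancel₀ h2 (mul_left_cancel₀ h1 hv)]

end Params

end Vale.Agent.P031
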