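import Vale.Agent.P031.Assemble.GoodReps
import Vale.Agent.P031.Assemble.Facts
import Vale.Agent.P031.Assemble.PairProfile
import Vale.Agent.P031.Collision

/-!
# P031 Q2, assembly: good representations are almost injective
-/

open Finset
open scoped Classical
noncomputable section

namespace Vale.Agent.P031.Assemble

theorem eventually_profBig :
    ∃ L0 : ℝ, ∀ P : Params, L0 ≤ P.L → P.Admissible → P.ProfBig := by
  obtain ⟨L1, h1⟩ := eventually_K_ge 16
  obtain ⟨L2, h2⟩ := Filter.eventually_atTop.1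
    (eventually_log_le (3 / 2) (show (0 : ℝ) < 1 - (6 : ℝ) / 250 by norm_num))
  refine ⟨max (max L1 L2) 2, fun P hL hP => ?_⟩
  simp only [max_le_iff] at hL
  refine ⟨h1 P hL.1.1 hP, by linarith, ?_⟩
  have h := rpow_le_div_two_pow hP (by linarith : 1 < P.L) 6
  push_cast at h
  have h' := h2 P.L hL.1.2
  unfold Params.eta
  calc 3 * Real.log P.L = 2 * (3 / 2 * Real.log P.L) := by ring
    _ ≤ 2 * (P.L / 2 ^ (6 * P.K)) := by gcongr; exact h'.trans h
    _ = 2 * (1 / 2 ^ (6 * P.K)) * P.L := by ring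

/-- The representation data in the shape of `GoodTop`. -/
theorem goodTop_of_mem {P : Params} {y : ℝ} (hy : 0 ≤ y) {r : Σ _ : P.Pair, ℕ}
    (hr : r ∈ goodReps P y) : P.GoodTop y (r.2, r.1) := by
  obtain ⟨hg, hp, hle, h1, h2, h3, -⟩ := (mem_goodReps hy).1 hr
  exact ⟨hg, hp, h3, h1, h2, hle⟩

/-- The list properties used by the collision theorem. -/
def ProfRaw (P : Params) (v : ℕ) (p : List ℕ) : Prop :=
  p.Pairwise (· > ·) ∧ p.length ≤ P.K' ∧ (∀ q ∈ p, Collision.Level P q) ∧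
    P.L - 3 * Real.log P.L ≤ lam ((p.getD 0 1 : ℕ) : ℝ) ∧
    (∃ u, SmallPart P u ∧ v = (p.map (fun q => q - 1)).prod * u) ∧
    ∀ i < P.K, i < p.length → ∑ k ∈ Finset.Ioo i p.length,
      fordA (k - i) * lam ((p.getD k 1 : ℕ) : ℝ) ≤ lam ((p.getD i 1 : ℕ) : ℝ) - P.eta * P.L

theorem profRaw_of_mem {P : Params} (hb : P.ProfBig) {y : ℝ} (hy : 0 ≤ y)
    (hy2 : y ≤ Real.exp (Real.exp (P.L + 1))) {r : Σ _ : P.Pair, ℕ} (hr : r ∈ goodReps P y) :
    ProfRaw P (repVal P r) (P.fullList (r.2, r.1)) := by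
  have hg := goodTop_of_mem hy hr
  obtain ⟨h1, h2, h3, ⟨u, hu0, huy, hu, hv⟩, h5⟩ := Params.fullList_spec hb hg
  refine ⟨h1, h2, h3, ?_, ⟨u, ⟨hu0, ?_, hu⟩, hv⟩, h5⟩
  · have e0 : (P.fullList (r.2, r.1)).getD 0 1 = r.2 := by
      simp [Params.fullList, Params.headList]
    rw [e0]
    exact hg.2.2.2.1
  · refine huy.trans (hy2.trans (Real.exp_le_exp.2 (Real.exp_le_exp.2 ?_)))
    linarith [hb.L1]

/-- A collision bound for keyed representations makes good representations almost injective. -/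
theorem card_goodReps_le_of {P : Params} (hb : P.ProfBig) {y E : ℝ} (hy : 0 ≤ y)
    (hy2 : y ≤ Real.exp (Real.exp (P.L + 1)))
    (hcol : ∀ S : Finset (ℕ × List ℕ), (∀ e ∈ S, (e.1 : ℝ) ≤ y ∧ ∃ p q, ProfRaw P e.1 p ∧
      ProfRaw P e.1 q ∧ p.take P.K = e.2 ∧ p.take P.K ≠ q.take P.K) → (S.card : ℝ) ≤ E) :
    ((goodReps P y).card : ℝ) ≤ (((goodReps P y).image (repVal P)).card : ℝ) + E := by
  have hK : 1 ≤ P.K := by have := hb.K16; omega
  set R := goodReps P y with hR
  set key : (Σ _ : P.Pair, ℕ) → ℕ × List ℕ := fun r => (repVal P r, P.headList (r.2, r.1))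
  set B := R.filter fun r => ∃ r' ∈ R, repVal P r' = repVal P r ∧ r' ≠ r with hB
  have hinj : ∀ a ∈ R, ∀ b ∈ R, repVal P a = repVal P b →
      P.headList (a.2, a.1) = P.headList (b.2, b.1) → a = b := by
    intro a ha b hb' hv hh
    have h := Params.eq_of_head hb (goodTop_of_mem hy ha) (goodTop_of_mem hy hb') hv hh
    obtain ⟨a1, a2⟩ := a
    obtain ⟨b1, b2⟩ := b
    simp only [Prod.mk.injEq] at h
    obtain ⟨rfl, rfl⟩ := h
    rfl
  have hS : ((B.image key).card : ℝ) ≤ E := by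
    refine hcol _ fun e he => ?_
    obtain ⟨r, hr, rfl⟩ := Finset.mem_image.1 he
    obtain ⟨hr, r', hr', hv, hne⟩ := Finset.mem_filter.1 hr
    refine ⟨((mem_goodReps hy).1 hr).2.2.1, P.fullList (r.2, r.1), P.fullList (r'.2, r'.1),
      profRaw_of_mem hb hy hy2 hr, ?_, Params.fullList_take P hK _, ?_⟩
    · simp only [key]
      rw [← hv]
      exact profRaw_of_mem hb hy hy2 hr'
    · rw [Params.fullList_take P hK, Params.fullList_take P hK]
      exact fun h => hne (hinj r' hr' r hr hv h.symm)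
  have hBinj : B.card = (B.image key).card := by
    refine (Finset.card_image_of_injOn fun a ha b hb' h => ?_).symm
    simp only [key, Prod.mk.injEq] at h
    exact hinj a (Finset.mem_filter.1 ha).1 b (Finset.mem_filter.1 hb').1 h.1 h.2
  have hrest : (R \ B).card ≤ (R.image (repVal P)).card := by
    rw [← Finset.card_image_of_injOn (f := repVal P) (s := R \ B) ?_]
    · exact Finset.card_le_card (Finset.image_subset_image Finset.sdiff_subset)
    · intro a ha b hb' h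
      obtain ⟨ha1, ha2⟩ := Finset.mem_sdiff.1 ha
      obtain ⟨hb1, -⟩ := Finset.mem_sdiff.1 hb'
      by_contra hne
      exact ha2 (Finset.mem_filter.2 ⟨ha1, b, hb1, h.symm, fun e => hne e.symm⟩)
  have hsplit : R.card ≤ (R.image (repVal P)).card + B.card := by
    have := Finset.card_sdiff_add_card (s := R) (t := B)
    have h2 : R.card ≤ (R ∪ B).card := Finset.card_le_card Finset.subset_union_left
    omega
  calc (R.card : ℝ) ≤ ((R.image (repVal P)).card : ℝ) + (B.card : ℝ) := by exact_mod_cast hsplit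
    _ ≤ _ := by rw [hBinj]; linarith

/-- The good representations are almost injective, given the collision bound. -/
theorem card_goodReps_le_of_collision
    (hcol : ∃ L0 : ℝ, ∀ P : Params, L0 ≤ P.L → P.Admissible → ∀ y : ℝ, 1 ≤ y →
      y ≤ Real.exp (Real.exp (P.L + 1)) → ∀ S : Finset (ℕ × List ℕ),
      (∀ e ∈ S, (e.1 : ℝ) ≤ y ∧ ∃ p q, ProfRaw P e.1 p ∧ ProfRaw P e.1 q ∧
        p.take P.K = e.2 ∧ p.take P.K ≠ q.take P.K) →
      (S.card : ℝ) ≤ y * Real.exp (-P.L) * Real.exp (-(P.L ^ (0.9 : ℝ)))) :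
    ∃ L0 : ℝ, ∀ P : Params, L0 ≤ P.L → P.Admissible → ∀ y : ℝ, 1 ≤ y →
      y ≤ Real.exp (Real.exp (P.L + 1)) →
      ((goodReps P y).card : ℝ) ≤ (((goodReps P y).image (repVal P)).card : ℝ)
        + y * Real.exp (-P.L) * Real.exp (-(P.L ^ (0.9 : ℝ))) := by
  obtain ⟨L1, h1⟩ := hcol
  obtain ⟨L2, h2⟩ := eventually_profBig
  refine ⟨max L1 L2, fun P hL hP y hy hy2 => ?_⟩
  simp only [max_le_iff] at hL
  exact card_goodReps_le_of (h2 P hL.2 hP) (by linarith) hy2 (h1 P hL.1 hP y hy hy2)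

theorem getD_one_eq_zero {p : List ℕ} {k : ℕ} (h : k < p.length) : p.getD k 1 = p.getD k 0 := by
  rw [List.getD_eq_getElem _ _ h, List.getD_eq_getElem _ _ h]

theorem prof_of_profRaw {P : Params} {v : ℕ} {p : List ℕ} (h : ProfRaw P v p) : Prof P v p := by
  obtain ⟨h1, h2, h3, h4, h5, h6⟩ := h
  refine ⟨h1, h2, h3, fun hlen => ?_, h5, fun i hi hil => ?_⟩
  · rw [← getD_one_eq_zero hlen]; exact h4
  · rw [← getD_one_eq_zero hil]
    refine le_trans (le_of_eq (Finset.sum_congr rfl fun k hk => ?_)) (h6 i hi hil)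
    rw [getD_one_eq_zero (Finset.mem_Ioo.1 hk).2]

/-- The good representations are almost injective. -/
theorem card_goodReps_le : ∃ L0 : ℝ, ∀ P : Params, L0 ≤ P.L → P.Admissible → ∀ y : ℝ, 1 ≤ y →
    y ≤ Real.exp (Real.exp (P.L + 1)) →
    ((goodReps P y).card : ℝ) ≤ (((goodReps P y).image (repVal P)).card : ℝ)
      + y * Real.exp (-P.L) * Real.exp (-(P.L ^ (0.9 : ℝ))) := by
  obtain ⟨L0, h⟩ := collision_negligible
  refine card_goodReps_le_of_collision ⟨L0, fun P hL hP y hy hy2 S hS => h P hL hP y hy hy2 S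
    fun e he => ?_⟩
  obtain ⟨h1, p, q, hp, hq, ht, hne⟩ := hS e he
  exact ⟨h1, p, q, prof_of_profRaw hp, prof_of_profRaw hq, ht, hne⟩

end Vale.Agent.P031.Assemble
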