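import Vale.Agent.P031.Assemble.Scale
import Vale.Agent.P031.Assemble.GoodCollision
import Vale.Agent.P031.Assemble.Final
import Vale.Agent.P031.Ratio
import Vale.Agent.P031.Reps

/-!
# P031 Q2: the Erdős–Hall question
-/

open Filter
open scoped Classical Topology
noncomputable section

namespace Vale.Agent.P031.Assemble

/-- `V(y) log y / y` is constant up to `1 + o(1)` on `[x, c x]`. -/
theorem totientCount_scale_uniform :
    ∀ ε > 0, ∀ c : ℝ, 1 < c → ∀ᶠ x in atTop, ∃ S > 0, ∀ y ∈ Set.Icc x (c * x),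
      |(totientCount y : ℝ) * Real.log y / y - S| ≤ ε * S := by
  have hR1 : ∃ L0 : ℝ, ∀ P : Params, L0 ≤ P.L → P.Admissible → ∀ y : ℝ,
      Real.exp (Real.exp P.L) ≤ y → lam y ≤ P.L + 1 → ∀ S : Finset ℕ,
      (∀ v ∈ S, 1 ≤ v ∧ (v : ℝ) ≤ y ∧ (∃ n, Nat.totient n = v) ∧
        ¬ ∃ p0 x m, P.IsRep v p0 x m) →
      (S.card : ℝ) ≤ y * Real.exp (-P.L) * Real.exp (-(P.L ^ (0.6 : ℝ))) := by
    obtain ⟨L0, h⟩ := values_have_rep
    exact ⟨L0, fun P h1 h2 y h3 h4 S hS => h P h2 h1 y h3 h4 S fun v hv =>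
      ⟨(hS v hv).1, (hS v hv).2.1, (hS v hv).2.2.1,
        fun p0 x m hr => (hS v hv).2.2.2 ⟨p0, x, m, hr⟩⟩⟩
  have h := scale_of hR1 (mass_upper_sub_good_le_of tail_bad_small) card_goodReps_le
    eventually_range
  intro ε hε c hc
  filter_upwards [h ε hε c hc] with x hx
  obtain ⟨S, hS, hall⟩ := hx
  exact ⟨S, hS, fun y hy => by rw [totientCount_eq_card]; exact hall y hy⟩

/-- For every `c > 1`, `V(c x) / V(x)` tends to `c`. -/
theorem totientCount_scale : ∀ c : ℝ, 1 < c →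
    Tendsto (fun x : ℝ => (totientCount (c * x) : ℝ) / totientCount x) atTop (𝓝 c) :=
  tendsto_of_scale totientCount_scale_uniform

end Vale.Agent.P031.Assemble
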