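import Vale.Agent.P031.RepDefs
import Vale.Agent.P031.Mertens

/-!
# P031 Q2, assembly: the finite sets of level tuples and tails
-/

open scoped Classical
noncomputable section

namespace Vale.Agent.P031

namespace Params

variable (P : Params)

/-- The data of a representation below the top prime: the levels and the tail. -/
abbrev Pair := (Fin (P.K - 1) → ℕ) × ℕ

/-- Pairs that a representation may use. -/
def UpperPair (z : P.Pair) : Prop :=
  (∀ i, z.1 i = 1 ∨ ((z.1 i).Prime ∧ P.Te < lam (z.1 i : ℝ) ∧ lam (z.1 i : ℝ) ≤ P.L + 1 ∧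
    P.Normal (z.1 i))) ∧
  P.TailGood z.2 ∧ P.coord z.1 ∈ P.PPlus (2 * P.eta) (P.tailB z.2)

/-- Pairs deep inside the polytope. -/
def GoodPair (z : P.Pair) : Prop :=
  (∀ i, (z.1 i).Prime ∧ P.Te < lam (z.1 i : ℝ) ∧ lam (z.1 i : ℝ) ≤ P.L + 1 ∧
    P.Normal (z.1 i)) ∧
  P.TailGood z.2 ∧ P.coord z.1 ∈ P.PMinus (3 * P.eta) (P.tailB z.2)

/-- A bound for all entries of a pair. -/
def entryBound : ℕ :=
  ⌈Real.exp (Real.exp (P.L + 1))⌉₊ + ⌈Real.exp (Real.exp (P.L / 2))⌉₊ + 2

/-- All pairs with bounded entries. -/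
def pairBox : Finset P.Pair :=
  (Fintype.piFinset fun _ => Finset.range P.entryBound) ×ˢ Finset.range P.entryBound

/-- The pairs that a representation may use, as a finite set. -/
def upperPairs : Finset P.Pair := P.pairBox.filter P.UpperPair

/-- The pairs deep inside the polytope, as a finite set. -/
def goodPairs : Finset P.Pair := P.pairBox.filter P.GoodPair

/-- The totient of the part of a representation below the top prime. -/
def pairW (z : P.Pair) : ℕ := prefW z.1 * z.2

/-- The weight of a set of pairs. -/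
def mass (S : Finset P.Pair) : ℝ := ∑ z ∈ S, (1 : ℝ) / (P.pairW z : ℝ)

theorem level_lt_entryBound {p : ℕ} (h : p = 1 ∨ (p.Prime ∧ lam (p : ℝ) ≤ P.L + 1)) :
    p < P.entryBound := by
  rcases h with rfl | ⟨hp, hl⟩
  · unfold entryBound; omega
  · have hlog : 0 < Real.log (p : ℝ) := Real.log_pos (by exact_mod_cast hp.one_lt)
    have h1 : Real.log (p : ℝ) ≤ Real.exp (P.L + 1) := (Real.log_le_iff_le_exp hlog).1 hl
    have h2 : (p : ℝ) ≤ Real.exp (Real.exp (P.L + 1)) :=
      (Real.log_le_iff_le_exp (by exact_mod_cast hp.pos)).1 h1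
    have h3 : (p : ℝ) ≤ (⌈Real.exp (Real.exp (P.L + 1))⌉₊ : ℝ) := h2.trans (Nat.le_ceil _)
    have : p ≤ ⌈Real.exp (Real.exp (P.L + 1))⌉₊ := by exact_mod_cast h3
    unfold entryBound; omega

theorem tail_lt_entryBound {m : ℕ} (h : P.TailGood m) : m < P.entryBound := by
  have hm : (0 : ℝ) < m := by exact_mod_cast Nat.pos_of_ne_zero h.ne_zero
  have h2 : (m : ℝ) ≤ (⌈Real.exp (Real.exp (P.L / 2))⌉₊ : ℝ) :=
    ((Real.log_le_iff_le_exp hm).1 h.size).trans (Nat.le_ceil _)
  have : m ≤ ⌈Real.exp (Real.exp (P.L / 2))⌉₊ := by exact_mod_cast h2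
  unfold entryBound; omega

theorem mem_upperPairs {z : P.Pair} : z ∈ P.upperPairs ↔ P.UpperPair z := by
  unfold upperPairs pairBox
  rw [Finset.mem_filter, and_iff_right_iff_imp]
  intro h
  rw [Finset.mem_product, Fintype.mem_piFinset, Finset.mem_range]
  refine ⟨fun i => Finset.mem_range.2 (P.level_lt_entryBound ?_), P.tail_lt_entryBound h.2.1⟩
  rcases h.1 i with h1 | h1
  · exact Or.inl h1
  · exact Or.inr ⟨h1.1, h1.2.2.1⟩

theorem mem_goodPairs {z : P.Pair} : z ∈ P.goodPairs ↔ P.GoodPair z := by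
  unfold goodPairs pairBox
  rw [Finset.mem_filter, and_iff_right_iff_imp]
  intro h
  rw [Finset.mem_product, Fintype.mem_piFinset, Finset.mem_range]
  exact ⟨fun i => Finset.mem_range.2 (P.level_lt_entryBound
    (Or.inr ⟨(h.1 i).1, (h.1 i).2.2.1⟩)), P.tail_lt_entryBound h.2.1⟩

theorem goodPairs_subset_upperPairs : P.goodPairs ⊆ P.upperPairs := by
  intro z hz
  obtain ⟨h1, h2, h3⟩ := P.mem_goodPairs.1 hz
  have : 0 < P.eta := Params.eta_pos
  exact P.mem_upperPairs.2
    ⟨fun i => Or.inr (h1 i), h2, pminus_subset_pplus (by linarith) h3⟩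

theorem mass_good_le_upper : P.mass P.goodPairs ≤ P.mass P.upperPairs :=
  Finset.sum_le_sum_of_subset_of_nonneg P.goodPairs_subset_upperPairs fun _ _ _ => by positivity

end Params

end Vale.Agent.P031
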