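import Vale.Agent.P031.Assemble.Facts
import Vale.Agent.P031.Assemble.Pairs
import Vale.Agent.P031.PNT

/-!
# P031 Q2, assembly: the number of top primes over a given pair
-/

open Filter Finset
open scoped Classical Topology
noncomputable section

namespace Vale.Agent.P031.Assemble

variable {P : Params}

/-- Top primes available over `z` below `y`. -/
def tops (y : ℝ) (z : P.Pair) : Finset ℕ := primesUpTo (y / (P.pairW z : ℝ) + 1)

theorem prefW_pos {k : ℕ} {x : Fin k → ℕ} (h : ∀ i, x i = 1 ∨ (x i).Prime) : 0 < prefW x := by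
  refine Finset.prod_pos fun i _ => Nat.totient_pos.2 ?_
  rcases h i with h | h
  · omega
  · exact h.pos

theorem pairW_pos_of_upper {z : P.Pair} (h : P.UpperPair z) : 0 < P.pairW z := by
  refine Nat.mul_pos (prefW_pos fun i => ?_) (Nat.pos_of_ne_zero h.2.1.ne_zero)
  rcases h.1 i with h1 | h1
  · exact Or.inl h1
  · exact Or.inr h1.1

theorem upper_of_good {z : P.Pair} (h : P.GoodPair z) : P.UpperPair z :=
  P.mem_upperPairs.1 (P.goodPairs_subset_upperPairs (P.mem_goodPairs.2 h))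

/-- The crude Chebyshev upper bound. -/
theorem card_primesUpTo_le_two :
    ∀ᶠ t : ℝ in atTop, ((primesUpTo t).card : ℝ) ≤ 2 * t / Real.log t := by
  filter_upwards [pnt.eventually_le_const (show (1 : ℝ) < 2 by norm_num),
    eventually_gt_atTop (1 : ℝ)] with t h ht
  rw [le_div_iff₀ (Real.log_pos ht)]
  rwa [div_le_iff₀ (by linarith)] at h

theorem eventually_exp_half_le {d : ℝ} (hd : 0 < d) :
    ∀ᶠ L : ℝ in atTop, Real.exp (L / 2) ≤ d * Real.exp L := by
  filter_upwards [eventually_ge_atTop (-2 * Real.log d)] with L hL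
  rw [← Real.exp_log hd, ← Real.exp_add]
  exact Real.exp_le_exp.2 (by linarith)

theorem eventually_log_mul_exp_neg {d : ℝ} (hd : 0 < d) :
    ∀ᶠ L : ℝ in atTop,
      Real.log L * Real.exp (-(3 * L ^ (1 / 2 : ℝ))) ≤ d := by
  have hu : Tendsto (fun L : ℝ => L ^ (1 / 2 : ℝ)) atTop atTop :=
    tendsto_rpow_atTop (by norm_num)
  have h := (Real.tendsto_pow_mul_exp_neg_atTop_nhds_zero 1).comp hu
  filter_upwards [h.eventually_le_const hd, eventually_ge_atTop (1 : ℝ),
    eventually_log_le 1 (show (0 : ℝ) < 1 / 2 by norm_num)] with L hL h1 hlog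
  simp only [Function.comp, pow_one] at hL
  have hp : (0 : ℝ) ≤ L ^ (1 / 2 : ℝ) := Real.rpow_nonneg (by linarith) _
  calc Real.log L * Real.exp (-(3 * L ^ (1 / 2 : ℝ)))
      ≤ L ^ (1 / 2 : ℝ) * Real.exp (-(L ^ (1 / 2 : ℝ))) :=
        mul_le_mul (by linarith) (Real.exp_le_exp.2 (by linarith)) (Real.exp_pos _).le hp
    _ ≤ d := hL

/-- In a good pair every level is at most `(1 - 3 eta) L` on the double-log scale. -/
theorem level_le_of_good {z : P.Pair} (hL : 0 < P.L) (h : P.GoodPair z) (i : Fin (P.K - 1)) :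
    lam (z.1 i : ℝ) ≤ (1 - 3 * P.eta) * P.L := by
  have hi : (i : ℕ) + 1 < P.K := by have := i.2; omega
  have heta : 0 < P.eta := Params.eta_pos
  have hgap : ∀ n, n + 1 < P.K →
      P.profile (P.tailB z.2) (P.coord z.1) (n + 1) ≤ 1 - 3 * P.eta := by
    intro n
    induction n with
    | zero =>
      intro _
      have h2 := (h.2.2 0 (by omega)).2
      rw [P.profile_zero] at h2
      linarith
    | succ n ih =>
      intro hn
      have h2 := (h.2.2 (n + 1) (by omega)).2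
      linarith [ih (by omega)]
  have h1 := hgap i hi
  rw [P.profile_mid (by omega) hi] at h1
  simp only [Params.coord, Params.clipX, Nat.add_sub_cancel] at h1
  have h2 : min 1 (lam (z.1 i : ℝ) / P.L) ≤ 1 - 3 * P.eta := (le_max_right _ _).trans h1
  rcases min_le_iff.1 h2 with h3 | h3
  · linarith
  · rwa [div_le_iff₀ hL] at h3

/-- The part below the top prime of a good pair is `y ^ o(1)`. -/
theorem log_pairW_le (d : ℝ) (hd : 0 < d) : ∃ L0 : ℝ, ∀ P : Params, L0 ≤ P.L → P.Admissible →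
    ∀ z : P.Pair, P.GoodPair z → Real.log (P.pairW z : ℝ) ≤ d * Real.exp P.L := by
  obtain ⟨L1, hL1⟩ := eventually_atTop.1 ((eventually_exp_half_le (half_pos hd)).and
    (eventually_log_mul_exp_neg (half_pos hd)))
  refine ⟨max L1 2, fun P hL hP z hz => ?_⟩
  obtain ⟨hh, he⟩ := hL1 P.L (le_trans (le_max_left _ _) hL)
  have hL2 : 2 ≤ P.L := le_trans (le_max_right _ _) hL
  have hW := pairW_pos_of_upper (upper_of_good hz)
  have hpre : 0 < prefW z.1 := prefW_pos fun i => Or.inr (hz.1 i).1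
  have hm : (0 : ℝ) < z.2 := by exact_mod_cast Nat.pos_of_ne_zero hz.2.1.ne_zero
  have heta : P.L ^ (1 / 2 : ℝ) ≤ P.eta * P.L := by
    rw [Params.eta, div_mul_eq_mul_div, one_mul]
    refine le_trans (Real.rpow_le_rpow_of_exponent_le (by linarith) ?_)
      (rpow_le_div_two_pow hP (by linarith) 6)
    norm_num
  have hlog : Real.log (prefW z.1 : ℝ) ≤
      ((P.K - 1 : ℕ) : ℝ) * Real.exp ((1 - 3 * P.eta) * P.L) := by
    rw [prefW, Nat.cast_prod, Real.log_prod (fun i _ => ?_)]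
    · refine le_of_le_of_eq (Finset.sum_le_card_nsmul _ _ (Real.exp ((1 - 3 * P.eta) * P.L))
        fun i _ => ?_) (by simp)
      have hp := (hz.1 i).1
      have hp1 : (1 : ℝ) < (z.1 i : ℝ) := by exact_mod_cast hp.one_lt
      have h1 : Real.log (z.1 i : ℝ) ≤ Real.exp ((1 - 3 * P.eta) * P.L) :=
        (Real.log_le_iff_le_exp (Real.log_pos hp1)).1 (level_le_of_good (by linarith) hz i)
      refine le_trans (Real.log_le_log ?_ ?_) h1
      · exact_mod_cast Nat.totient_pos.2 hp.pos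
      · exact_mod_cast Nat.totient_le _
    · exact_mod_cast (Nat.totient_pos.2 (hz.1 i).1.pos).ne'
  rw [Params.pairW, Nat.cast_mul, Real.log_mul (by exact_mod_cast hpre.ne') hm.ne']
  have hKlog : ((P.K - 1 : ℕ) : ℝ) ≤ Real.log P.L := by
    have h1 : ((P.K - 1 : ℕ) : ℝ) ≤ P.K := by exact_mod_cast Nat.sub_le _ _
    linarith [hP.2.1, Real.log_nonneg (show (1 : ℝ) ≤ P.L by linarith)]
  have hexp : Real.exp ((1 - 3 * P.eta) * P.L) ≤
      Real.exp (-(3 * P.L ^ (1 / 2 : ℝ))) * Real.exp P.L := by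
    rw [← Real.exp_add]; exact Real.exp_le_exp.2 (by linarith)
  have h1 : ((P.K - 1 : ℕ) : ℝ) * Real.exp ((1 - 3 * P.eta) * P.L) ≤ d / 2 * Real.exp P.L := by
    calc ((P.K - 1 : ℕ) : ℝ) * Real.exp ((1 - 3 * P.eta) * P.L)
        ≤ Real.log P.L * (Real.exp (-(3 * P.L ^ (1 / 2 : ℝ))) * Real.exp P.L) :=
          mul_le_mul hKlog hexp (Real.exp_pos _).le (Real.log_nonneg (by linarith))
      _ = Real.log P.L * Real.exp (-(3 * P.L ^ (1 / 2 : ℝ))) * Real.exp P.L := by ring
      _ ≤ d / 2 * Real.exp P.L := mul_le_mul_of_nonneg_right he (Real.exp_pos _).le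
  linarith [hz.2.1.size]

/-- Asymptotic number of top primes over a good pair. -/
theorem card_tops_good (ε : ℝ) (hε : 0 < ε) : ∃ L0 : ℝ, ∀ P : Params, L0 ≤ P.L → P.Admissible →
    ∀ y : ℝ, Real.exp (Real.exp P.L) ≤ y → ∀ z : P.Pair, P.GoodPair z →
    |((tops y z).card : ℝ) * ((P.pairW z : ℝ) * Real.log y) / y - 1| ≤ ε := by
  obtain ⟨d, hd, Y, hY⟩ := pnt_uniform ε hε
  obtain ⟨L1, hL1⟩ := log_pairW_le d hd
  obtain ⟨L2, hL2⟩ := eventually_atTop.1
    ((Real.tendsto_exp_atTop.comp Real.tendsto_exp_atTop).eventually_ge_atTop Y)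
  refine ⟨max L1 L2, fun P hL hP y hy z hz => ?_⟩
  have hW : (1 : ℝ) ≤ P.pairW z := by exact_mod_cast pairW_pos_of_upper (upper_of_good hz)
  have hYy : Y ≤ y := (hL2 P.L (le_trans (le_max_right _ _) hL)).trans hy
  refine hY y hYy _ hW 1 ⟨zero_le_one, le_rfl⟩ ?_
  have hly : Real.exp P.L ≤ Real.log y := by
    rw [← Real.log_exp (Real.exp P.L)]
    exact Real.log_le_log (Real.exp_pos _) hy
  exact (hL1 P (le_trans (le_max_left _ _) hL) hP z hz).trans
    (mul_le_mul_of_nonneg_left hly hd.le)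

/-- Crude count of top primes over any pair, for values above `√x`. -/
theorem card_tops_upper : ∃ L0 : ℝ, ∀ P : Params, L0 ≤ P.L → P.Admissible →
    ∀ y : ℝ, 0 ≤ y → ∀ z : P.Pair, P.UpperPair z → ∀ S : Finset ℕ,
    (∀ p ∈ S, p.Prime ∧ (∀ i, z.1 i ≤ p) ∧ (((p - 1) * P.pairW z : ℕ) : ℝ) ≤ y ∧
      Real.exp (Real.exp P.L / 2) < (((p - 1) * P.pairW z : ℕ) : ℝ)) →
    (S.card : ℝ) ≤ 12 * (P.K : ℝ) * y / ((P.pairW z : ℝ) * Real.exp P.L) := by
  obtain ⟨T0, hT0⟩ := eventually_atTop.1 card_primesUpTo_le_two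
  set A : ℝ := max 1 (Real.log (max T0 2)) with hA
  obtain ⟨L1, hL1⟩ := eventually_atTop.1 ((eventually_exp_half_le (show (0 : ℝ) < 1 / 6 by
    norm_num)).and ((Real.tendsto_exp_div_pow_atTop 1).eventually_ge_atTop (3 * A)))
  obtain ⟨L2, hL2⟩ := eventually_atTop.1 ((eventually_log_le 1 (show (0 : ℝ) < 1 by norm_num)).and
    (eventually_ge_atTop (8 : ℝ)))
  refine ⟨max L1 L2, fun P hL hP y hy z hz S hS => ?_⟩
  obtain ⟨hh, hE⟩ := hL1 P.L (le_trans (le_max_left _ _) hL)
  obtain ⟨hlogL, h8⟩ := hL2 P.L (le_trans (le_max_right _ _) hL)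
  rw [Real.rpow_one] at hlogL
  rw [pow_one, le_div_iff₀ (by linarith)] at hE
  have hW0 : 0 < P.pairW z := pairW_pos_of_upper hz
  have hW : (0 : ℝ) < P.pairW z := by exact_mod_cast hW0
  have hK0 : (1 : ℝ) ≤ P.K := by exact_mod_cast hP.1
  have hKL : (P.K : ℝ) ≤ P.L := by linarith [hP.2.1]
  have hEpos := Real.exp_pos P.L
  rcases S.eq_empty_or_nonempty with rfl | ⟨p, hp⟩
  · simp only [card_empty, Nat.cast_zero]
    positivity
  obtain ⟨hpp, hxp, hvy, hvx⟩ := hS p hp
  set t : ℝ := y / (P.pairW z : ℝ) + 1 with ht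
  have hp1 : (1 : ℝ) ≤ (p : ℝ) - 1 := by
    have : (2 : ℝ) ≤ p := by exact_mod_cast hpp.two_le
    linarith
  rw [Nat.cast_mul, Nat.cast_sub hpp.one_le, Nat.cast_one] at hvy hvx
  have hpt : (p : ℝ) ≤ t := by
    have := (le_div_iff₀ hW).2 hvy
    linarith
  have hyW : 1 ≤ y / (P.pairW z : ℝ) := by linarith
  -- the top prime is large
  have hlogp : Real.exp P.L / 3 ≤ (P.K : ℝ) * Real.log (p : ℝ) := by
    have h1 := Real.log_lt_log (Real.exp_pos _) hvx
    rw [Real.log_exp, Real.log_mul (by linarith) hW.ne'] at h1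
    have hpre : 0 < prefW z.1 := by
      have := hW0; unfold Params.pairW at this; exact Nat.pos_of_mul_pos_right this
    have hpre' : (prefW z.1 : ℝ) ≠ 0 := by exact_mod_cast hpre.ne'
    have hm : (z.2 : ℝ) ≠ 0 := by exact_mod_cast hz.2.1.ne_zero
    have h2 : Real.log (prefW z.1 : ℝ) ≤ ((P.K : ℝ) - 1) * Real.log (p : ℝ) := by
      have hle : prefW z.1 ≤ p ^ (P.K - 1) := by
        have := Finset.prod_le_pow_card (Finset.univ : Finset (Fin (P.K - 1)))
          (fun i => Nat.totient (z.1 i)) p fun i _ => (Nat.totient_le _).trans (hxp i)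
        simpa [prefW] using this
      have hle' : (prefW z.1 : ℝ) ≤ (p : ℝ) ^ (P.K - 1) := by exact_mod_cast hle
      have h3 := Real.log_le_log (by exact_mod_cast hpre) hle'
      rwa [Real.log_pow, Nat.cast_sub hP.1, Nat.cast_one] at h3
    have h3 : Real.log ((p : ℝ) - 1) ≤ Real.log (p : ℝ) := Real.log_le_log (by linarith) (by linarith)
    rw [Params.pairW, Nat.cast_mul, Real.log_mul hpre' hm] at h1
    linarith [hz.2.1.size]
  have hlogt : Real.exp P.L / (3 * P.K) ≤ Real.log t := by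
    refine le_trans ?_ (Real.log_le_log (by linarith) hpt)
    rw [div_le_iff₀ (by positivity)]; linarith
  have hA1 : Real.log (max T0 2) ≤ Real.exp P.L / (3 * P.K) := by
    rw [le_div_iff₀ (by positivity)]
    calc Real.log (max T0 2) * (3 * (P.K : ℝ)) ≤ A * (3 * P.L) :=
          mul_le_mul (le_max_right _ _) (by linarith) (by positivity)
            (le_trans zero_le_one (le_max_left _ _))
      _ ≤ Real.exp P.L := by linarith
  have htT : T0 ≤ t := by
    have h := (Real.log_le_log_iff (by positivity) (by linarith)).1 (hA1.trans hlogt)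
    exact le_trans (le_max_left _ _) h
  have hsub : S ⊆ primesUpTo t := fun q hq => by
    obtain ⟨hqp, _, hqy, _⟩ := hS q hq
    rw [Nat.cast_mul, Nat.cast_sub hqp.one_le, Nat.cast_one] at hqy
    refine (mem_primesUpTo (by linarith)).2 ⟨hqp, ?_⟩
    have := (le_div_iff₀ hW).2 hqy
    linarith
  have hE3 : 0 < Real.exp P.L / (3 * P.K) := by positivity
  calc (S.card : ℝ) ≤ ((primesUpTo t).card : ℝ) := by exact_mod_cast card_le_card hsub
    _ ≤ 2 * t / Real.log t := hT0 t htT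
    _ ≤ 2 * (2 * (y / (P.pairW z : ℝ))) / (Real.exp P.L / (3 * P.K)) :=
        div_le_div₀ (by positivity) (by linarith) hE3 hlogt
    _ = 12 * (P.K : ℝ) * y / ((P.pairW z : ℝ) * Real.exp P.L) := by field_simp; ring

end Vale.Agent.P031.Assemble
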