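import Vale.Agent.P031.Assemble.Count

/-!
# P031 Q2, assembly: the good representations
-/

open Finset
open scoped Classical
noncomputable section

namespace Vale.Agent.P031.Assemble

/-- The top primes used with a good pair. -/
def goodTops (P : Params) (y : ℝ) (z : P.Pair) : Finset ℕ :=
  (tops y z).filter fun p : ℕ => P.L - 3 * Real.log P.L ≤ lam (p : ℝ) ∧ lam (p : ℝ) ≤ P.L + 1 ∧
    P.Normal p ∧ ∀ i, z.1 i < p

/-- The good representations of values up to `y`. -/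
def goodReps (P : Params) (y : ℝ) : Finset (Σ _ : P.Pair, ℕ) :=
  P.goodPairs.sigma (goodTops P y)

/-- The value of a representation. -/
def repVal (P : Params) (r : Σ _ : P.Pair, ℕ) : ℕ := (r.2 - 1) * P.pairW r.1

theorem mem_goodReps {P : Params} {y : ℝ} (hy : 0 ≤ y) {r : Σ _ : P.Pair, ℕ} :
    r ∈ goodReps P y ↔ P.GoodPair r.1 ∧ r.2.Prime ∧ ((repVal P r : ℕ) : ℝ) ≤ y ∧
      P.L - 3 * Real.log P.L ≤ lam (r.2 : ℝ) ∧ lam (r.2 : ℝ) ≤ P.L + 1 ∧ P.Normal r.2 ∧
      ∀ i, r.1.1 i < r.2 := by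
  simp only [goodReps, goodTops, tops, Finset.mem_sigma, Params.mem_goodPairs, Finset.mem_filter]
  constructor
  · rintro ⟨hg, hp, h1, h2, h3, h4⟩
    have hW : (0 : ℝ) < P.pairW r.1 := by exact_mod_cast pairW_pos_of_upper (upper_of_good hg)
    obtain ⟨hpp, hle⟩ := (mem_primesUpTo (by positivity)).1 hp
    refine ⟨hg, hpp, ?_, h1, h2, h3, h4⟩
    rw [repVal, Nat.cast_mul, Nat.cast_sub hpp.one_le, Nat.cast_one, ← le_div_iff₀ hW]
    linarith
  · rintro ⟨hg, hpp, hle, h1, h2, h3, h4⟩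
    have hW : (0 : ℝ) < P.pairW r.1 := by exact_mod_cast pairW_pos_of_upper (upper_of_good hg)
    refine ⟨hg, (mem_primesUpTo (by positivity)).2 ⟨hpp, ?_⟩, h1, h2, h3, h4⟩
    rw [repVal, Nat.cast_mul, Nat.cast_sub hpp.one_le, Nat.cast_one, ← le_div_iff₀ hW] at hle
    linarith

end Vale.Agent.P031.Assemble
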