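import Vale.Agent.P031.Assemble.GoodReps
import Vale.Agent.P031.Normal

/-!
# P031 Q2, assembly: almost every top prime over a good pair gives a good representation
-/

open Filter Finset
open scoped Classical Topology
noncomputable section

namespace Vale.Agent.P031.Assemble

theorem card_goodTops_ge (ε : ℝ) (hε : 0 < ε) : ∃ L0 : ℝ, ∀ P : Params, L0 ≤ P.L → P.Admissible →
    ∀ y : ℝ, Real.exp (Real.exp P.L) ≤ y → lam (2 * y + 2) ≤ P.L + 1 →
    ∀ z : P.Pair, P.GoodPair z →
    (1 - ε) * y / ((P.pairW z : ℝ) * Real.log y) ≤ ((goodTops P y z).card : ℝ) := by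
  obtain ⟨La, hLa⟩ := card_tops_good (ε / 3) (by positivity)
  obtain ⟨Lb, hLb⟩ := log_pairW_le (1 / 4) (by norm_num)
  obtain ⟨Lc, hLc⟩ := normal_count
  obtain ⟨Ld, hLd⟩ := eventually_atTop.1
    (((Real.tendsto_exp_div_pow_atTop 1).eventually_ge_atTop (4 : ℝ)).and
      ((Real.tendsto_exp_atTop.eventually_ge_atTop (4 * (4 + |Real.log (ε / 3)|))).and
        ((eventually_log_le 3 (show (0 : ℝ) < 1 / 2 by norm_num)).and
          ((eventually_absorb 0 (12 / ε) (show (0.5 : ℝ) < 0.7 by norm_num)
            (by norm_num : (0 : ℝ) < 0.5)).and (eventually_ge_atTop (8 : ℝ))))))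
  refine ⟨max (max La Lb) (max Lc Ld), fun P hL hP y hy hy2 z hz => ?_⟩
  simp only [max_le_iff] at hL
  obtain ⟨hA, hB, hlogL, habs, h8⟩ := hLd P.L hL.2.2
  rw [pow_one, le_div_iff₀ (by linarith)] at hA
  set E : ℝ := Real.exp P.L with hEdef
  have hE : 0 < E := Real.exp_pos _
  have hy1 : 1 < y := lt_of_lt_of_le (Real.one_lt_exp_iff.2 hE) hy
  have hly : E ≤ Real.log y := by
    rw [← Real.log_exp E]; exact Real.log_le_log (Real.exp_pos _) hy
  set W : ℝ := (P.pairW z : ℝ) with hWdef
  have hW1 : 1 ≤ W := by rw [hWdef]; exact_mod_cast pairW_pos_of_upper (upper_of_good hz)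
  have hlW : Real.log W ≤ 1 / 4 * E := hLb P hL.1.2 hP z hz
  set q : ℝ := y / (W * Real.log y) with hqdef
  have hyl0 : 0 < Real.log y := lt_of_lt_of_le hE hly
  have hy0 : 0 < y := by linarith
  have hW0 : 0 < W := by linarith
  have hq : 0 < q := by rw [hqdef]; positivity
  set X : ℝ := y / W + 1 with hXdef
  have htops : (1 - ε / 3) * q ≤ ((tops y z).card : ℝ) := by
    have h := (abs_le.1 (hLa P hL.1.1 hP y hy z hz)).1
    rw [← hWdef] at h
    have hyl : 0 < Real.log y := lt_of_lt_of_le hE hly
    have h2 : 1 - ε / 3 ≤ ((tops y z).card : ℝ) * (W * Real.log y) / y := by linarith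
    rw [le_div_iff₀ (by linarith)] at h2
    rw [hqdef, mul_div_assoc', div_le_iff₀ (by positivity)]
    exact h2
  -- the largest level
  have hEe : E ≤ Real.exp (P.L + 1) := Real.exp_le_exp.2 (by linarith)
  -- the two exceptional sets
  set A : Finset ℕ := primesUpTo (Real.exp (Real.exp (P.L - 3 * Real.log P.L))) with hAdef
  set B : Finset ℕ := (primesUpTo X).filter fun p : ℕ => P.Te ≤ lam (p : ℝ) ∧ ¬ P.Normal p
    with hBdef
  have hlog0 : 0 ≤ Real.log P.L := Real.log_nonneg (by linarith)
  have heta : P.L ^ (1 / 2 : ℝ) ≤ P.eta * P.L := by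
    rw [Params.eta, div_mul_eq_mul_div, one_mul]
    refine le_trans (Real.rpow_le_rpow_of_exponent_le (by linarith) ?_)
      (rpow_le_div_two_pow hP (by linarith) 6)
    norm_num
  have hTe : P.Te ≤ P.L - 3 * Real.log P.L := by
    have h1 : P.Te ≤ P.L / 2 := by
      rw [Params.Te]
      refine div_le_div_of_nonneg_left (by linarith) two_pos ?_
      have h2K : (2 : ℝ) ^ 1 ≤ 2 ^ (17 * P.K) := pow_le_pow_right₀ one_le_two (by have := hP.1; omega)
      simpa using h2K
    have h2 : P.L ^ (1 / 2 : ℝ) ≤ P.L / 2 := by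
      rw [← Real.sqrt_eq_rpow, le_div_iff₀ two_pos]
      nlinarith [Real.sq_sqrt (show (0 : ℝ) ≤ P.L by linarith), Real.sqrt_nonneg P.L]
    linarith
  have hX2 : X ≤ 2 * y + 2 := by
    have : y / W ≤ y := div_le_self (by linarith) hW1
    linarith
  have hsub : tops y z ⊆ goodTops P y z ∪ (A ∪ B) := by
    intro p hp
    have hpt := (mem_primesUpTo (by positivity)).1 hp
    simp only [mem_union]
    by_cases h1 : lam (p : ℝ) < P.L - 3 * Real.log P.L
    · exact Or.inr (Or.inl ((mem_primesLe_lam).2 ⟨hpt.1, h1.le⟩))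
    push Not at h1
    by_cases h2 : P.Normal p
    · left
      refine mem_filter.2 ⟨hp, h1, ?_, h2, fun i => ?_⟩
      · refine le_trans (Real.log_le_log (Real.log_pos ?_) (Real.log_le_log ?_ ?_)) hy2
        · exact_mod_cast hpt.1.one_lt
        · exact_mod_cast hpt.1.pos
        · linarith [hpt.2]
      · by_contra hle
        push Not at hle
        have hxi := level_le_of_good (by linarith) hz i
        have hmono : lam (p : ℝ) ≤ lam (z.1 i : ℝ) :=
          Real.log_le_log (Real.log_pos (by exact_mod_cast hpt.1.one_lt))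
            (Real.log_le_log (by exact_mod_cast hpt.1.pos) (by exact_mod_cast hle))
        have h3 : P.L - 3 * Real.log P.L ≤ (1 - 3 * P.eta) * P.L := h1.trans (hmono.trans hxi)
        have h4 : (2 : ℝ) ≤ P.L ^ (1 / 2 : ℝ) := by
          rw [← Real.sqrt_eq_rpow]; exact Real.le_sqrt_of_sq_le (by linarith)
        nlinarith
    · exact Or.inr (Or.inr (mem_filter.2 ⟨hp, hTe.trans h1, h2⟩))
  have hAle : (A.card : ℝ) ≤ ε / 3 * q := by
    set u : ℝ := Real.exp (P.L - 3 * Real.log P.L) with hu
    have hu4 : u ≤ E / 4 := by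
      rw [hu, sub_eq_add_neg, Real.exp_add, div_eq_mul_inv]
      refine mul_le_mul_of_nonneg_left ?_ hE.le
      rw [Real.exp_neg]
      refine inv_anti₀ (by norm_num) ?_
      calc (4 : ℝ) ≤ P.L := by linarith
        _ = Real.exp (Real.log P.L) := (Real.exp_log (by linarith)).symm
        _ ≤ Real.exp (3 * Real.log P.L) := Real.exp_le_exp.2 (by linarith)
    have hcard : (A.card : ℝ) ≤ 2 * Real.exp u := by
      have h1 : A.card ≤ ⌊Real.exp u⌋₊ + 1 := (card_filter_le _ _).trans (by simp [hu])
      have h1' : (A.card : ℝ) ≤ (⌊Real.exp u⌋₊ : ℝ) + 1 := by exact_mod_cast h1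
      have h2 := Nat.floor_le (Real.exp_pos u).le
      have h3 : (1 : ℝ) ≤ Real.exp u := Real.one_le_exp (Real.exp_pos _).le
      linarith
    refine hcard.trans ?_
    have hyl : 0 < Real.log y := lt_of_lt_of_le hE hly
    have hl2 : Real.log (Real.log y) ≤ P.L + 1 :=
      le_trans (Real.log_le_log hyl (Real.log_le_log (by linarith) (by linarith))) hy2
    rw [← Real.exp_log (show 0 < ε / 3 * q by positivity)]
    calc (2 : ℝ) * Real.exp u ≤ Real.exp (1 + u) := by
          rw [Real.exp_add]
          exact mul_le_mul_of_nonneg_right (by linarith [Real.exp_one_gt_d9]) (Real.exp_pos _).le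
      _ ≤ Real.exp (Real.log (ε / 3 * q)) := by
          refine Real.exp_le_exp.2 ?_
          rw [Real.log_mul (by positivity) hq.ne', hqdef,
            Real.log_div hy0.ne' (mul_pos hW0 hyl).ne', Real.log_mul hW0.ne' hyl.ne']
          linarith [neg_abs_le (Real.log (ε / 3))]
  have hBle : (B.card : ℝ) ≤ ε / 3 * q := by
    have hyW : E / 2 ≤ Real.log (y / W) := by
      rw [Real.log_div (by linarith) (by linarith)]; linarith
    have hyW1 : 1 < y / W := by
      by_contra h
      push Not at h
      have := Real.log_nonpos (by positivity) h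
      linarith
    have hyl : 0 < Real.log y := lt_of_lt_of_le hE hly
    have hlX : Real.log y / 2 ≤ Real.log X := by
      refine le_trans ?_ (Real.log_le_log (by linarith) (show y / W ≤ X by linarith))
      rw [Real.log_div (by linarith) (by linarith)]
      linarith
    have hX1 : 1 < X := by linarith
    have hlamX : lam X ≤ P.L + 2 := by
      refine le_trans (Real.log_le_log (Real.log_pos hX1) (Real.log_le_log (by linarith) hX2)) ?_
      change lam (2 * y + 2) ≤ _
      linarith
    have hN := hLc P hL.2.1 hP X (by linarith) hlamX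
    refine le_trans hN ?_
    have he : Real.exp (-(P.L ^ (0.7 : ℝ))) ≤ ε / 12 := by
      have h0 : Real.exp (-(P.L ^ (0.5 : ℝ))) ≤ 1 :=
        Real.exp_le_one_iff.2 (neg_nonpos.2 (Real.rpow_nonneg (by linarith) _))
      rw [zero_mul, zero_sub] at habs
      have h := habs.trans h0
      rw [mul_comm, ← le_div_iff₀ (by positivity)] at h
      refine h.trans (le_of_eq ?_)
      field_simp
    calc X / Real.log X * Real.exp (-(P.L ^ (0.7 : ℝ)))
        ≤ (2 * (y / W)) / (Real.log y / 2) * (ε / 12) :=
          mul_le_mul (div_le_div₀ (by positivity) (by linarith) (by positivity) hlX) he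
            (Real.exp_pos _).le (by positivity)
      _ = ε / 3 * q := by rw [hqdef]; field_simp; ring
  have h1 : ((tops y z).card : ℝ) ≤ (goodTops P y z).card + ((A.card : ℝ) + B.card) := by
    have h := (card_le_card hsub).trans (card_union_le _ _)
    have h' := card_union_le A B
    exact_mod_cast h.trans (by omega)
  calc (1 - ε) * y / (W * Real.log y) = (1 - ε) * q := by rw [hqdef]; ring
    _ ≤ ((goodTops P y z).card : ℝ) := by nlinarith

end Vale.Agent.P031.Assemble
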