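import Vale.Agent.P031.Assemble.LowerTops
import Vale.Agent.P031.Assemble.PairProfile

/-!
# P031 Q2, assembly: the count of totient values equals the mass of the good pairs
-/

open Filter Finset
open scoped Classical Topology
noncomputable section

namespace Vale.Agent.P031.Assemble

/-- The totient values up to `y`. -/
def totVals (y : ℝ) : Finset ℕ := (Finset.Icc 1 ⌊y⌋₊).filter fun v => ∃ n, Nat.totient n = v

/-- The range of `y` handled with the parameters `P`. -/
structure InRange (P : Params) (y : ℝ) : Prop where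
  lo : Real.exp (Real.exp P.L) ≤ y
  lam_le : lam (2 * y + 2) ≤ P.L + 1
  hi : y ≤ Real.exp (Real.exp (P.L + 1))
  log_le : Real.log y ≤ 2 * Real.exp P.L

theorem InRange.one_lt {P : Params} {y : ℝ} (h : InRange P y) : 1 < y :=
  lt_of_lt_of_le (Real.one_lt_exp_iff.2 (Real.exp_pos _)) h.lo

theorem InRange.lam_y_le {P : Params} {y : ℝ} (h : InRange P y) : lam y ≤ P.L + 1 := by
  have h1 := h.one_lt
  rw [lam, Real.log_le_iff_le_exp (Real.log_pos h1), Real.log_le_iff_le_exp (by linarith)]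
  exact h.hi

theorem InRange.le_log {P : Params} {y : ℝ} (h : InRange P y) : Real.exp P.L ≤ Real.log y := by
  rw [← Real.log_exp (Real.exp P.L)]
  exact Real.log_le_log (Real.exp_pos _) h.lo

/-- A good representation gives a totient value. -/
theorem repVal_mem_totVals {P : Params} (hb : P.ProfBig) {y : ℝ} (hy : 0 ≤ y)
    {r : Σ _ : P.Pair, ℕ} (hr : r ∈ goodReps P y) : repVal P r ∈ totVals y := by
  obtain ⟨hz, hp, hle, -, -, -, hlt⟩ := (mem_goodReps hy).1 hr
  obtain ⟨⟨x, m⟩, p⟩ := r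
  obtain ⟨hlev, hmono, hK1⟩ := Params.good_levels hb hz
  obtain ⟨hxs, hm, -⟩ := hz
  simp only at hp hlt hxs hm hlev hmono hK1 ⊢
  have hL : 0 < P.L := by linarith [hb.L1]
  have he : 0 < P.eta := Params.eta_pos
  have hpos : 0 < repVal P (⟨(x, m), p⟩ : Σ _ : P.Pair, ℕ) := by
    show 0 < (p - 1) * P.pairW (x, m)
    refine Nat.mul_pos (by have := hp.two_le; omega) (Nat.mul_pos ?_ (Nat.pos_of_ne_zero hm.ne_zero))
    exact prefW_pos fun i => Or.inr (hxs i).1
  refine mem_filter.2 ⟨mem_Icc.2 ⟨hpos, Nat.le_floor hle⟩, ?_⟩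
  have hinj : Function.Injective x := by
    intro i j hij
    have hc : P.coord x i = P.coord x j := by simp only [Params.coord, hij]
    rcases lt_trichotomy i j with h | h | h
    · linarith [hmono i j h]
    · exact h
    · linarith [hmono j i h]
  have htail : ∀ i, ∀ r ∈ (canon m).primeFactors, lam (r : ℝ) < lam (x i : ℝ) := by
    intro i r hr
    rcases le_or_gt (lam (r : ℝ)) P.Te with h | h
    · exact lt_of_le_of_lt h (hxs i).2.1
    have hmem : r ∈ P.bigPrimes (canon m) := P.mem_bigPrimes.2 ⟨hr, h⟩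
    have hlx := (hlev i).1
    have hsorted := P.bigPrimes_sorted (canon m)
    have hBK : P.tailB m P.K = P.clipX ((P.bigPrimes (canon m)).getD 0 1) := by
      simp [Params.tailB]
    match hl : P.bigPrimes (canon m) with
    | [] => rw [hl] at hmem; simp at hmem
    | a :: l =>
      rw [hl] at hmem hsorted hBK
      simp only [List.getD_cons_zero] at hBK
      have hra : r ≤ a := by
        rcases List.mem_cons.1 hmem with h' | h'
        · exact h'.le
        · exact ((List.pairwise_cons.1 hsorted).1 r h').le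
      have h2 : 2 ≤ r := (Nat.prime_of_mem_primeFactors hr).two_le
      have h3 : lam (r : ℝ) ≤ lam (a : ℝ) := lam_mono h2 hra
      have h4 : min 1 (lam (a : ℝ) / P.L) ≤ P.tailB m P.K := hBK ▸ le_max_right _ _
      have h5 : lam (a : ℝ) / P.L ≤ P.tailB m P.K := by
        rcases min_le_iff.1 h4 with h6 | h6
        · linarith
        · exact h6
      have h6 := (hlev i).2.2
      rw [div_le_iff₀ hL] at h5
      rw [hlx]
      nlinarith
  set S : Finset ℕ := insert p (univ.image x) with hS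
  have hSp : ∀ q ∈ S, q.Prime := by
    intro q hq
    rcases mem_insert.1 hq with rfl | hq
    · exact hp
    · obtain ⟨i, -, rfl⟩ := mem_image.1 hq
      exact (hxs i).1
  have hpx : p ∉ univ.image x := fun h => by
    obtain ⟨i, -, hi⟩ := mem_image.1 h
    exact absurd hi (hlt i).ne
  have hSc : ∀ q ∈ S, ∀ s ∈ (canon m).primeFactors, q ≠ s := by
    intro q hq s hs
    rcases mem_insert.1 hq with hqp | hq'
    · intro h
      have := hb.K16
      have h1 := htail ⟨0, by omega⟩ s hs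
      have h2 := lam_mono (hxs ⟨0, by omega⟩).1.two_le (hlt ⟨0, by omega⟩).le
      rw [← h, hqp] at h1
      linarith
    · obtain ⟨i, -, hi⟩ := mem_image.1 hq'
      intro h
      have h1 := htail i s hs
      rw [← h, ← hi] at h1
      exact lt_irrefl _ h1
  refine ⟨(∏ q ∈ S, q) * canon m, ?_⟩
  rw [Nat.totient_mul, totient_prod_primes S hSp, hm.pre, hS, prod_insert hpx,
    prod_image (fun i _ j _ h => hinj h)]
  · simp only [repVal, Params.pairW, prefW]
    rw [prod_congr rfl fun i _ => Nat.totient_prime (hxs i).1, mul_assoc]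
  · refine Nat.Coprime.prod_left fun q hq => ?_
    refine (hSp q hq).coprime_iff_not_dvd.2 fun hd => ?_
    exact hSc q hq q (Nat.mem_primeFactors.2 ⟨hSp q hq, hd, hm.pre_ne⟩) rfl

/-- The upper bound. -/
theorem totVals_le
    (hR1 : ∃ L0 : ℝ, ∀ P : Params, L0 ≤ P.L → P.Admissible → ∀ y : ℝ,
      Real.exp (Real.exp P.L) ≤ y → lam y ≤ P.L + 1 → ∀ S : Finset ℕ,
      (∀ v ∈ S, 1 ≤ v ∧ (v : ℝ) ≤ y ∧ (∃ n, Nat.totient n = v) ∧
        ¬ ∃ p0 x m, P.IsRep v p0 x m) →
      (S.card : ℝ) ≤ y * Real.exp (-P.L) * Real.exp (-(P.L ^ (0.6 : ℝ))))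
    (ε : ℝ) (hε : 0 < ε) :
    ∃ L0 : ℝ, ∀ P : Params, L0 ≤ P.L → P.Admissible → ∀ y : ℝ, InRange P y →
      ((totVals y).card : ℝ) * Real.log y / y ≤
        (1 + ε) * P.mass P.goodPairs +
          24 * (P.K : ℝ) * (P.mass P.upperPairs - P.mass P.goodPairs) + ε := by
  obtain ⟨La, hLa⟩ := hR1
  obtain ⟨Lb, hLb⟩ := card_tops_good ε hε
  obtain ⟨Lc, hLc⟩ := card_tops_upper
  obtain ⟨Ld, hLd⟩ := eventually_atTop.1
    ((eventually_absorb 0 (4 / ε) (show (0.5 : ℝ) < 0.6 by norm_num)
        (by norm_num : (0 : ℝ) < 0.5)).and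
      ((((Real.tendsto_pow_mul_exp_neg_atTop_nhds_zero 1).comp
          (Real.tendsto_exp_atTop.atTop_div_const two_pos)).eventually_le_const
            (show 0 < ε / 8 by positivity)).and (eventually_ge_atTop (1 : ℝ))))
  refine ⟨max (max La Lb) (max Lc Ld), fun P hL hP y hy => ?_⟩
  simp only [max_le_iff] at hL
  obtain ⟨habs, hsmall, hL1⟩ := hLd P.L hL.2.2
  simp only [Function.comp, pow_one] at hsmall
  set E : ℝ := Real.exp P.L with hE
  have hE0 : 0 < E := Real.exp_pos _
  have hy0 : 0 < y := by linarith [hy.one_lt]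
  have hly := hy.le_log
  have hly2 := hy.log_le
  rw [← hE] at hly hly2
  set T := totVals y with hT
  set S0 := T.filter fun v => ¬ ∃ p0 x m, P.IsRep v p0 x m with hS0
  set S1 := T.filter fun v : ℕ => (v : ℝ) ≤ Real.exp (E / 2) with hS1
  set F : P.Pair → Finset ℕ := fun z => (tops y z).filter fun p : ℕ =>
    (∀ i, z.1 i ≤ p) ∧ Real.exp (E / 2) < (((p - 1) * P.pairW z : ℕ) : ℝ) with hF
  have hsub : T ⊆ S0 ∪ S1 ∪
      P.upperPairs.biUnion fun z => (F z).image fun p => (p - 1) * P.pairW z := by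
    intro v hv
    obtain ⟨hv1, hn⟩ := mem_filter.1 hv
    obtain ⟨hv0, hvy⟩ := mem_Icc.1 hv1
    have hvy' : (v : ℝ) ≤ y := (Nat.cast_le.2 hvy).trans (Nat.floor_le hy0.le)
    simp only [mem_union, hS0, hS1, mem_filter, mem_biUnion]
    by_cases hrep : ∃ p0 x m, P.IsRep v p0 x m
    swap
    · exact Or.inl (Or.inl ⟨hv, hrep⟩)
    by_cases hsm : (v : ℝ) ≤ Real.exp (E / 2)
    · exact Or.inl (Or.inr ⟨hv, hsm⟩)
    obtain ⟨p0, x, m, h⟩ := hrep
    refine Or.inr ⟨(x, m), P.mem_upperPairs.2 ⟨h.levels, h.tail, h.plus⟩, ?_⟩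
    have hv' : v = (p0 - 1) * P.pairW (x, m) := by rw [h.eq, Params.pairW, mul_assoc]
    have hW : (0 : ℝ) < P.pairW (x, m) := by
      exact_mod_cast pairW_pos_of_upper (z := (x, m)) ⟨h.levels, h.tail, h.plus⟩
    refine mem_image.2 ⟨p0, mem_filter.2 ⟨(mem_primesUpTo (by positivity)).2 ⟨h.prime0, ?_⟩,
      h.le_p0, ?_⟩, hv'.symm⟩
    · rw [hv', Nat.cast_mul, Nat.cast_sub h.prime0.one_le, Nat.cast_one, ← le_div_iff₀ hW] at hvy'
      linarith
    · rw [← hv']; exact lt_of_not_ge hsm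
  have hc0 : (S0.card : ℝ) * Real.log y / y ≤ ε / 2 := by
    have h := hLa P hL.1.1 hP y hy.lo hy.lam_y_le S0 fun v hv => by
      obtain ⟨hv', hrep⟩ := mem_filter.1 hv
      obtain ⟨hv1, hn⟩ := mem_filter.1 hv'
      obtain ⟨hv0, hvy⟩ := mem_Icc.1 hv1
      exact ⟨hv0, (Nat.cast_le.2 hvy).trans (Nat.floor_le hy0.le), hn, hrep⟩
    rw [zero_mul, zero_sub] at habs
    have h06 : Real.exp (-(P.L ^ (0.6 : ℝ))) ≤ ε / 4 := by
      have h0 : Real.exp (-(P.L ^ (0.5 : ℝ))) ≤ 1 :=
        Real.exp_le_one_iff.2 (neg_nonpos.2 (Real.rpow_nonneg (by linarith) _))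
      have h1 := habs.trans h0
      rw [mul_comm, ← le_div_iff₀ (by positivity)] at h1
      refine h1.trans (le_of_eq ?_)
      field_simp
    calc (S0.card : ℝ) * Real.log y / y
        ≤ y * Real.exp (-P.L) * Real.exp (-(P.L ^ (0.6 : ℝ))) * (2 * E) / y :=
          div_le_div_of_nonneg_right (mul_le_mul h hly2 (by linarith) (by positivity)) hy0.le
      _ = 2 * Real.exp (-(P.L ^ (0.6 : ℝ))) := by
          rw [hE, Real.exp_neg]; field_simp
      _ ≤ ε / 2 := by linarith
  have hc1 : (S1.card : ℝ) * Real.log y / y ≤ ε / 2 := by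
    have hsub1 : S1 ⊆ Finset.Icc 1 ⌊Real.exp (E / 2)⌋₊ := fun v hv => by
      obtain ⟨hv', hle⟩ := mem_filter.1 hv
      exact mem_Icc.2 ⟨(mem_Icc.1 (mem_filter.1 hv').1).1, Nat.le_floor hle⟩
    have hcard : (S1.card : ℝ) ≤ Real.exp (E / 2) := by
      refine le_trans (Nat.cast_le.2 (card_le_card hsub1)) ?_
      simp only [Nat.card_Icc, Nat.add_sub_cancel]
      exact Nat.floor_le (Real.exp_pos _).le
    have hyE : Real.exp (E / 2) * Real.exp (E / 2) ≤ y := by
      rw [← Real.exp_add, add_halves]; exact hy.lo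
    calc (S1.card : ℝ) * Real.log y / y
        ≤ Real.exp (E / 2) * (2 * E) / (Real.exp (E / 2) * Real.exp (E / 2)) := by
          refine div_le_div₀ (by positivity) ?_ (by positivity) hyE
          exact mul_le_mul hcard hly2 (by linarith) (Real.exp_pos _).le
      _ = 4 * (E / 2 * Real.exp (-(E / 2))) := by rw [Real.exp_neg]; field_simp; ring
      _ ≤ ε / 2 := by linarith
  have hgood : ∀ z ∈ P.goodPairs,
      ((F z).card : ℝ) * Real.log y / y ≤ (1 + ε) * (1 / (P.pairW z : ℝ)) := by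
    intro z hz
    have hg := P.mem_goodPairs.1 hz
    have hW : (0 : ℝ) < P.pairW z := by exact_mod_cast pairW_pos_of_upper (upper_of_good hg)
    have h := (abs_le.1 (hLb P hL.1.2 hP y hy.lo z hg)).2
    have h2 : ((F z).card : ℝ) ≤ (tops y z).card := by exact_mod_cast card_filter_le _ _
    have hl0 : 0 ≤ Real.log y / y := by
      refine div_nonneg ?_ hy0.le
      linarith
    calc ((F z).card : ℝ) * Real.log y / y ≤ ((tops y z).card : ℝ) * Real.log y / y := by
          rw [mul_div_assoc, mul_div_assoc]; exact mul_le_mul_of_nonneg_right h2 hl0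
      _ = ((tops y z).card : ℝ) * ((P.pairW z : ℝ) * Real.log y) / y * (1 / (P.pairW z : ℝ)) := by
          field_simp
      _ ≤ (1 + ε) * (1 / (P.pairW z : ℝ)) :=
          mul_le_mul_of_nonneg_right (by linarith) (by positivity)
  have hother : ∀ z ∈ P.upperPairs \ P.goodPairs,
      ((F z).card : ℝ) * Real.log y / y ≤ 24 * (P.K : ℝ) * (1 / (P.pairW z : ℝ)) := by
    intro z hz
    have hu := P.mem_upperPairs.1 (mem_sdiff.1 hz).1
    have hW : (0 : ℝ) < P.pairW z := by exact_mod_cast pairW_pos_of_upper hu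
    have h := hLc P hL.2.1 hP y hy0.le z hu (F z) fun p hp => by
      obtain ⟨hpt, hxp, hvx⟩ := mem_filter.1 hp
      obtain ⟨hpp, hple⟩ := (mem_primesUpTo (by positivity)).1 hpt
      refine ⟨hpp, hxp, ?_, hvx⟩
      rw [Nat.cast_mul, Nat.cast_sub hpp.one_le, Nat.cast_one, ← le_div_iff₀ hW]
      linarith
    calc ((F z).card : ℝ) * Real.log y / y
        ≤ 12 * (P.K : ℝ) * y / ((P.pairW z : ℝ) * E) * (2 * E) / y :=
          div_le_div_of_nonneg_right (mul_le_mul h hly2 (by linarith) (by positivity)) hy0.le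
      _ = 24 * (P.K : ℝ) * (1 / (P.pairW z : ℝ)) := by field_simp; ring
  have hsum : (∑ z ∈ P.upperPairs, ((F z).card : ℝ)) * Real.log y / y ≤
      (1 + ε) * P.mass P.goodPairs +
        24 * (P.K : ℝ) * (P.mass P.upperPairs - P.mass P.goodPairs) := by
    rw [sum_mul, sum_div, ← sum_sdiff P.goodPairs_subset_upperPairs]
    have hdiff : P.mass P.upperPairs - P.mass P.goodPairs =
        P.mass (P.upperPairs \ P.goodPairs) := by
      simp only [Params.mass]
      rw [← sum_sdiff P.goodPairs_subset_upperPairs]; ring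
    rw [hdiff, add_comm, Params.mass, Params.mass, mul_sum, mul_sum]
    exact add_le_add (sum_le_sum hgood) (sum_le_sum hother)
  have hT' : (T.card : ℝ) ≤
      (S0.card : ℝ) + (S1.card : ℝ) + ∑ z ∈ P.upperPairs, ((F z).card : ℝ) := by
    have h := (card_le_card hsub).trans ((card_union_le _ _).trans
      (add_le_add (card_union_le _ _) (card_biUnion_le.trans
        (sum_le_sum fun z _ => card_image_le))))
    exact_mod_cast h
  have hl0 : 0 ≤ Real.log y / y := div_nonneg (by linarith) hy0.le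
  have hfin := mul_le_mul_of_nonneg_right hT' hl0
  rw [add_mul, add_mul, ← mul_div_assoc, ← mul_div_assoc, ← mul_div_assoc, ← mul_div_assoc] at hfin
  linarith

/-- The lower bound. -/
theorem le_totVals
    (hColl : ∃ L0 : ℝ, ∀ P : Params, L0 ≤ P.L → P.Admissible → ∀ y : ℝ, 1 ≤ y →
      y ≤ Real.exp (Real.exp (P.L + 1)) →
      ((goodReps P y).card : ℝ) ≤ (((goodReps P y).image (repVal P)).card : ℝ) +
        y * Real.exp (-P.L) * Real.exp (-(P.L ^ (0.9 : ℝ))))
    (ε : ℝ) (hε : 0 < ε) :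
    ∃ L0 : ℝ, ∀ P : Params, L0 ≤ P.L → P.Admissible → P.ProfBig → ∀ y : ℝ, InRange P y →
      (1 - ε) * P.mass P.goodPairs - ε ≤ ((totVals y).card : ℝ) * Real.log y / y := by
  obtain ⟨La, hLa⟩ := hColl
  obtain ⟨Lb, hLb⟩ := card_goodTops_ge ε hε
  obtain ⟨Lc, hLc⟩ := eventually_atTop.1
    ((eventually_absorb 0 (2 / ε) (show (0.5 : ℝ) < 0.9 by norm_num)
      (by norm_num : (0 : ℝ) < 0.5)).and (eventually_ge_atTop (1 : ℝ)))
  refine ⟨max (max La Lb) Lc, fun P hL hP hb y hy => ?_⟩
  simp only [max_le_iff] at hL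
  obtain ⟨habs, hL1⟩ := hLc P.L hL.2
  have hy0 : 0 < y := by linarith [hy.one_lt]
  have hly0 : 0 < Real.log y := Real.log_pos hy.one_lt
  have hl0 : 0 ≤ Real.log y / y := div_nonneg hly0.le hy0.le
  have hreps : (1 - ε) * P.mass P.goodPairs ≤ ((goodReps P y).card : ℝ) * Real.log y / y := by
    rw [goodReps, card_sigma, Nat.cast_sum, sum_mul, sum_div, Params.mass, mul_sum]
    refine sum_le_sum fun z hz => ?_
    have hg := P.mem_goodPairs.1 hz
    have hW : (0 : ℝ) < P.pairW z := by exact_mod_cast pairW_pos_of_upper (upper_of_good hg)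
    have h := mul_le_mul_of_nonneg_right (hLb P hL.1.2 hP y hy.lo hy.lam_le z hg) hl0
    rw [← mul_div_assoc] at h
    refine le_trans (le_of_eq ?_) (le_trans h (le_of_eq ?_))
    · field_simp
    · rw [mul_div_assoc]
  have hcoll := mul_le_mul_of_nonneg_right
    (hLa P hL.1.1 hP y hy.one_lt.le hy.hi) hl0
  have himg : (((goodReps P y).image (repVal P)).card : ℝ) ≤ (totVals y).card := by
    refine Nat.cast_le.2 (card_le_card ?_)
    intro v hv
    obtain ⟨r, hr, rfl⟩ := mem_image.1 hv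
    exact repVal_mem_totVals hb hy0.le hr
  have himg' := mul_le_mul_of_nonneg_right himg hl0
  have herr : y * Real.exp (-P.L) * Real.exp (-(P.L ^ (0.9 : ℝ))) * (Real.log y / y) ≤ ε := by
    rw [zero_mul, zero_sub] at habs
    have h0 : Real.exp (-(P.L ^ (0.5 : ℝ))) ≤ 1 :=
      Real.exp_le_one_iff.2 (neg_nonpos.2 (Real.rpow_nonneg (by linarith) _))
    have h1 := habs.trans h0
    rw [mul_comm, ← le_div_iff₀ (by positivity)] at h1
    have h2 : Real.exp (-P.L) * Real.log y ≤ 2 := by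
      calc Real.exp (-P.L) * Real.log y ≤ Real.exp (-P.L) * (2 * Real.exp P.L) :=
            mul_le_mul_of_nonneg_left hy.log_le (Real.exp_pos _).le
        _ = 2 := by rw [Real.exp_neg]; field_simp
    calc y * Real.exp (-P.L) * Real.exp (-(P.L ^ (0.9 : ℝ))) * (Real.log y / y)
        = (Real.exp (-P.L) * Real.log y) * Real.exp (-(P.L ^ (0.9 : ℝ))) := by field_simp
      _ ≤ 2 * (1 / (2 / ε)) := mul_le_mul h2 h1 (Real.exp_pos _).le (by norm_num)
      _ = ε := by field_simp
  rw [add_mul] at hcoll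
  rw [mul_div_assoc] at hreps ⊢
  linarith

end Vale.Agent.P031.Assemble
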