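import Vale.Agent.P031.Assemble.Main

/-!
# P031 Q2, assembly: `V(y) log y / y` is constant up to `1 + o(1)` on `[x, c x]`
-/

open Filter Finset
open scoped Classical Topology
noncomputable section

namespace Vale.Agent.P031.Assemble

theorem eventually_profBig :
    ∃ L0 : ℝ, ∀ P : Params, L0 ≤ P.L → P.Admissible → P.ProfBig := by
  obtain ⟨La, hLa⟩ := eventually_K_ge 16
  obtain ⟨Lb, hLb⟩ := eventually_atTop.1
    ((eventually_log_le 3 (show (0 : ℝ) < 1 / 2 by norm_num)).and (eventually_ge_atTop (2 : ℝ)))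
  refine ⟨max La Lb, fun P hL hP => ?_⟩
  obtain ⟨hlog, h2⟩ := hLb P.L (le_trans (le_max_right _ _) hL)
  refine ⟨hLa P (le_trans (le_max_left _ _) hL) hP, by linarith, ?_⟩
  have heta : P.L ^ (1 / 2 : ℝ) ≤ P.eta * P.L := by
    rw [Params.eta, div_mul_eq_mul_div, one_mul]
    refine le_trans (Real.rpow_le_rpow_of_exponent_le (by linarith) ?_)
      (rpow_le_div_two_pow hP (by linarith) 6)
    norm_num
  have : 0 ≤ P.eta * P.L := le_trans (Real.rpow_nonneg (by linarith) _) heta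
  linarith

/-- The scale theorem, from representations, the mass ratio and the collision bound. -/
theorem scale_of
    (hR1 : ∃ L0 : ℝ, ∀ P : Params, L0 ≤ P.L → P.Admissible → ∀ y : ℝ,
      Real.exp (Real.exp P.L) ≤ y → lam y ≤ P.L + 1 → ∀ S : Finset ℕ,
      (∀ v ∈ S, 1 ≤ v ∧ (v : ℝ) ≤ y ∧ (∃ n, Nat.totient n = v) ∧
        ¬ ∃ p0 x m, P.IsRep v p0 x m) →
      (S.card : ℝ) ≤ y * Real.exp (-P.L) * Real.exp (-(P.L ^ (0.6 : ℝ))))
    (hRatio : ∀ del : ℝ, 0 < del → ∃ L0 : ℝ, ∀ L, L0 ≤ L → ∃ P : Params, P.L = L ∧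
      P.Admissible ∧ 16 ≤ P.K ∧ 1 ≤ P.mass P.goodPairs ∧
      (P.K : ℝ) * (P.mass P.upperPairs - P.mass P.goodPairs) ≤ del * P.mass P.goodPairs)
    (hColl : ∃ L0 : ℝ, ∀ P : Params, L0 ≤ P.L → P.Admissible → ∀ y : ℝ, 1 ≤ y →
      y ≤ Real.exp (Real.exp (P.L + 1)) →
      ((goodReps P y).card : ℝ) ≤ (((goodReps P y).image (repVal P)).card : ℝ) +
        y * Real.exp (-P.L) * Real.exp (-(P.L ^ (0.9 : ℝ))))
    (hRange : ∀ c : ℝ, 1 ≤ c → ∀ L0 : ℝ, ∀ᶠ x in atTop, L0 ≤ lam x ∧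
      Real.exp (Real.exp (lam x)) = x ∧ ∀ y ∈ Set.Icc x (c * x),
        lam (2 * y + 2) ≤ lam x + 1 ∧ y ≤ Real.exp (Real.exp (lam x + 1)) ∧
          Real.log y ≤ 2 * Real.exp (lam x)) :
    ∀ ε > 0, ∀ c : ℝ, 1 < c → ∀ᶠ x in atTop, ∃ S > 0, ∀ y ∈ Set.Icc x (c * x),
      |((totVals y).card : ℝ) * Real.log y / y - S| ≤ ε * S := by
  intro ε hε c hc
  set a : ℝ := ε / 30 with ha
  have ha0 : 0 < a := by positivity
  obtain ⟨La, hLa⟩ := totVals_le hR1 a ha0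
  obtain ⟨Lb, hLb⟩ := le_totVals hColl a ha0
  obtain ⟨Lc, hLc⟩ := hRatio a ha0
  obtain ⟨Ld, hLd⟩ := eventually_profBig
  filter_upwards [hRange c hc.le (max (max La Lb) (max Lc Ld))] with x ⟨hL, hx, hy⟩
  simp only [max_le_iff] at hL
  obtain ⟨P, hPL, hP, -, hS1, hgap⟩ := hLc (lam x) hL.2.1
  rw [← hPL] at hL hx hy
  refine ⟨P.mass P.goodPairs, by linarith, fun y hyI => ?_⟩
  obtain ⟨h1, h2, h3⟩ := hy y hyI
  have hR : InRange P y := ⟨hx.trans_le hyI.1, h1, h2, h3⟩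
  have hup := hLa P hL.1.1 hP y hR
  have hlo := hLb P hL.1.2 hP (hLd P hL.2.2 hP) y hR
  have hgap' : 24 * (P.K : ℝ) * (P.mass P.upperPairs - P.mass P.goodPairs) ≤
      24 * (a * P.mass P.goodPairs) := by linarith
  have haS : a ≤ a * P.mass P.goodPairs := le_mul_of_one_le_right ha0.le hS1
  rw [abs_le]
  constructor <;> nlinarith

end Vale.Agent.P031.Assemble
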